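import Vale.Agent.P209.Defs

namespace Vale.Agent.P209

open scoped ContDiff

/-- Area form on `ℂ`. -/
def om (v w : ℂ) : ℝ := v.re * w.im - v.im * w.re

/-- Smooth, injective, area preserving self-map of the plane. -/
structure AreaP (S : ℂ → ℂ) : Prop where
  smooth : ContDiff ℝ ∞ S
  inj : Function.Injective S
  area : ∀ z v w, om (fderiv ℝ S z v) (fderiv ℝ S z w) = om v w

/-- Action coordinates. -/
noncomputable def act {n : ℕ} (w : Fin n → ℂ) (j : Fin n) : ℝ := Real.pi * ‖w j‖ ^ 2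

/-- Affine map on actions. -/
noncomputable def aff {n : ℕ} (A : Matrix (Fin n) (Fin n) ℤ) (b : Fin n → ℝ) (x : Fin n → ℝ)
    (j : Fin n) : ℝ := ∑ k, (A j k : ℝ) * x k + b j

/-- The toric map with action part `aff A b` and angle part `B`. -/
noncomputable def mono {n : ℕ} (A B : Matrix (Fin n) (Fin n) ℤ) (b : Fin n → ℝ) (w : Fin n → ℂ)
    (j : Fin n) : ℂ :=
  (√(aff A b (act w) j / Real.pi) : ℝ) * ∏ k, (w k / (‖w k‖ : ℝ)) ^ (B j k)

/-- Domain of the toric map. -/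
def dom {n : ℕ} (A : Matrix (Fin n) (Fin n) ℤ) (b : Fin n → ℝ) : Set (Fin n → ℂ) :=
  {w | (∀ k, w k ≠ 0) ∧ ∀ j, 0 < aff A b (act w) j}

/-- Open order simplex of size `s`. -/
def T (n : ℕ) (s : ℝ) : Set (Fin n → ℝ) := {y | StrictAnti y ∧ ∀ j, 0 < y j ∧ y j < s}

abbrev Cell (n : ℕ) := Equiv.Perm (Fin n) × (Fin n → ℝ)

def cmap {n : ℕ} (c : Cell n) (y : Fin n → ℝ) : Fin n → ℝ := fun j => c.2 j + y (c.1 j)

def img {n : ℕ} (c : Cell n) (s : ℝ) : Set (Fin n → ℝ) := cmap c '' T n s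

theorem T_mono {n : ℕ} {s s' : ℝ} (h : s ≤ s') : T n s ⊆ T n s' :=
  fun _ hy => ⟨hy.1, fun j => ⟨(hy.2 j).1, (hy.2 j).2.trans_le h⟩⟩

theorem img_mono {n : ℕ} (c : Cell n) {s s' : ℝ} (h : s ≤ s') : img c s ⊆ img c s' :=
  Set.image_mono (T_mono h)

end Vale.Agent.P209
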