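import Vale.Agent.P209.Fill

namespace Vale.Agent.P209

open Finset

/-- Cell packing of the order simplex. -/
def CP (n : ℕ) {k : ℕ} (s : Fin k → ℝ) (R : ℝ) : Prop :=
  ∃ c : Fin k → Cell n, (∀ i, img (c i) (s i) ⊆ T n R) ∧
    ∀ i j, i ≠ j → Disjoint (img (c i) (s i)) (img (c j) (s j))

/-- One cell in the corner, the others above the level `t`. -/
theorem cp_of {n k : ℕ} {s : Fin k → ℝ} {R t : ℝ} (i₀ : Fin k) (ht : s i₀ ≤ t) (hR : t ≤ R)
    (c : Fin k → Cell n) (h1 : ∀ i, i ≠ i₀ → img (c i) (s i) ⊆ T n R)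
    (h2 : ∀ i, i ≠ i₀ → ∀ y ∈ img (c i) (s i), ∃ j, t < y j)
    (h3 : ∀ i, i ≠ i₀ → ∀ j, j ≠ i₀ → i ≠ j → Disjoint (img (c i) (s i)) (img (c j) (s j))) :
    CP n s R := by
  have e : img ((1, 0) : Cell n) (s i₀) = T n (s i₀) := by
    have e1 : cmap ((1, 0) : Cell n) = id := by
      funext y j
      simp [cmap]
    rw [img, e1, Set.image_id]
  have hd : ∀ i, i ≠ i₀ → Disjoint (T n (s i₀)) (img (c i) (s i)) := by
    intro i hi
    rw [Set.disjoint_left]
    intro y hy hy'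
    obtain ⟨j, hj⟩ := h2 i hi y hy'
    linarith [(hy.2 j).2]
  refine ⟨fun i => if i = i₀ then (1, 0) else c i, fun i => ?_, fun i j hij => ?_⟩
  · by_cases hi : i = i₀
    · simp only [hi, if_true]
      rw [e]
      exact T_mono (ht.trans hR)
    · simp only [if_neg hi]
      exact h1 i hi
  · by_cases hi : i = i₀
    · have hj : j ≠ i₀ := fun h => hij (hi.trans h.symm)
      simp only [if_neg hj, hi, if_true]
      rw [e]
      exact hd j hj
    · by_cases hj : j = i₀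
      · simp only [if_neg hi, hj, if_true]
        rw [e]
        exact (hd i hi).symm
      · simp only [if_neg hi, if_neg hj]
        exact h3 i hi j hj hij

theorem comb {n k : ℕ} (hn : 1 ≤ n) {s : Fin k → ℝ} {R : ℝ} (i₀ : Fin k) (hs : ∀ i, 0 < s i)
    (hmax : ∀ i, s i ≤ s i₀) (h0 : s i₀ < R) (h2 : ∀ i, i ≠ i₀ → s i₀ + s i ≤ R)
    (h : k ≤ 2 ^ n ∨ 4 ^ n * ∑ i ∈ univ.erase i₀, s i ^ n ≤ R ^ n - s i₀ ^ n) : CP n s R := by
  obtain ⟨t, ht⟩ : ∃ t, t = max (s i₀) (R / 2) := ⟨_, rfl⟩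
  have hs0 := hs i₀
  have t1 : s i₀ ≤ t := ht ▸ le_max_left _ _
  have t2 : R / 2 ≤ t := ht ▸ le_max_right _ _
  have t3 : t < R := ht ▸ max_lt h0 (by linarith)
  have t4 : t = s i₀ ∨ t = R / 2 := ht ▸ max_choice _ _
  obtain ⟨ρ, hρ⟩ : ∃ ρ, ρ = R - t := ⟨_, rfl⟩
  have r0 : 0 < ρ := by linarith
  have r1 : ∀ i, i ≠ i₀ → s i ≤ ρ := fun i hi => by
    rcases t4 with h3 | h3 <;> linarith [h2 i hi, hmax i]
  obtain ⟨m, hm⟩ : ∃ m, m = ⌊t / ρ⌋₊ := ⟨_, rfl⟩
  have m1 : (1 : ℝ) ≤ m := by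
    have : 1 ≤ m := hm ▸ Nat.le_floor (by rw [Nat.cast_one, le_div_iff₀ r0]; linarith)
    exact_mod_cast this
  have m2 : m * ρ ≤ t := by
    rw [← le_div_iff₀ r0, hm]
    exact Nat.floor_le (div_nonneg (by linarith) r0.le)
  have m3 : t < (m + 1) * ρ := by
    rw [← div_lt_iff₀ r0, hm]
    exact Nat.lt_floor_add_one _
  obtain ⟨cl, g1, g2, g3⟩ := grid n (m + 1) r0 (show 0 ≤ t - m * ρ by linarith)
  have e1 : t - m * ρ + ((m + 1 : ℕ) : ℝ) * ρ = R := by
    push_cast
    linarith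
  rw [e1] at g1
  have hF := card_top n m
  obtain ⟨F, hF'⟩ : ∃ F, F = univ.filter fun f : Fin n → Fin (m + 1) => ∃ l, (f l : ℕ) = m :=
    ⟨_, rfl⟩
  rw [← hF'] at hF
  have f1 : (2 : ℝ) ^ n - 1 ≤ F.card := by
    have h3 := pow_sub_pow_mono n (x := 1) (d := 1) zero_le_one zero_le_one m1 le_rfl
    rw [one_pow, one_add_one_eq_two] at h3
    linarith
  have p2 : (2 : ℝ) ≤ 2 ^ n := le_self_pow₀ (by norm_num) (by omega)
  obtain ⟨c, c1, c2⟩ := fill F cl (univ.erase i₀) s r0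
    (fun i hi => ⟨hs i, r1 i (mem_erase.1 hi).1⟩) (fun q _ q' _ hq => g3 q q' hq) (by
      rcases h with h | h
      · left
        have h3 : (univ.erase i₀).card + 1 = k := by
          rw [card_erase_add_one (mem_univ _), card_univ, Fintype.card_fin]
        have h4 : ((univ.erase i₀).card : ℝ) + 1 ≤ 2 ^ n := by exact_mod_cast h3.trans_le h
        have h5 : ((univ.erase i₀).card : ℝ) ≤ F.card := by linarith
        exact_mod_cast h5
      · right
        have h3 : R ^ n - s i₀ ^ n ≤ 2 ^ n * (F.card * ρ ^ n) := by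
          rcases t4 with h4 | h4
          · have h5 := pow_sub_pow_mono n (x := t) (d := ρ) (x' := 2 * (m * ρ)) (d' := 2 * ρ)
              (by linarith) r0.le (by nlinarith) (by linarith)
            rw [show t + ρ = R by linarith, show 2 * (m * ρ) + 2 * ρ = 2 * ((m + 1) * ρ) by ring,
              mul_pow, mul_pow, mul_pow, mul_pow] at h5
            rw [← h4, hF]
            linarith
          · have h5 : R ^ n = 2 ^ n * ρ ^ n := by
              rw [← mul_pow]
              congr 1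
              linarith
            have h6 : ρ ^ n ≤ F.card * ρ ^ n :=
              le_mul_of_one_le_left (by positivity) (by linarith)
            have h7 := mul_le_mul_of_nonneg_left h6 (by positivity : (0 : ℝ) ≤ 2 ^ n)
            have h8 : 0 ≤ s i₀ ^ n := by positivity
            linarith
        have h4 : (4 : ℝ) ^ n = 2 ^ n * 2 ^ n := by
          rw [← mul_pow]
          norm_num
        rw [h4, mul_assoc] at h
        exact le_of_mul_le_mul_left (h.trans h3) (by positivity))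
  have hA : ∀ i, i ≠ i₀ → i ∈ univ.erase i₀ := fun i hi => mem_erase.2 ⟨hi, mem_univ _⟩
  refine cp_of i₀ t1 t3.le c (fun i hi => ?_) (fun i hi y hy => ?_)
    fun i hi j hj hij => c2 i (hA i hi) j (hA j hj) hij
  · obtain ⟨q, -, hq⟩ := c1 i (hA i hi)
    exact hq.trans (g1 q)
  · obtain ⟨q, hq, hq'⟩ := c1 i (hA i hi)
    rw [hF'] at hq
    obtain ⟨l, hl⟩ := (mem_filter.1 hq).2
    obtain ⟨j, hj⟩ := g2 q y (hq' hy) l
    rw [hl] at hj
    exact ⟨j, by linarith⟩

end Vale.Agent.P209
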