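import Vale.Agent.P209.Kraft

namespace Vale.Agent.P209

open Finset

/-- Rounding a size to the form `ρ / (m 2^a)` with `L ≤ m < 2 L`. -/
theorem round_size {ρ s : ℝ} {L : ℕ} (hL : 1 ≤ L) (hs : 0 < s) (h : L * s ≤ ρ) :
    ∃ m a : ℕ, L ≤ m ∧ m < 2 * L ∧ s ≤ ρ / m / 2 ^ a ∧ ρ / m / 2 ^ a ≤ (1 + 1 / L) * s := by
  have hL0 : (0 : ℝ) < L := by exact_mod_cast hL
  have h1 : 1 ≤ ρ / (L * s) := by rw [le_div_iff₀ (by positivity), one_mul]; exact h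
  obtain ⟨a, ha1, ha2⟩ := exists_nat_pow_near h1 (one_lt_two (α := ℝ))
  have h2a : (0 : ℝ) < 2 ^ a := by positivity
  obtain ⟨x, hx⟩ : ∃ x, x = ρ / (s * 2 ^ a) := ⟨_, rfl⟩
  have hρ : ρ = x * (s * 2 ^ a) := by rw [hx]; field_simp
  have hx1 : (L : ℝ) ≤ x := by
    rw [le_div_iff₀ (by positivity)] at ha1
    rw [hx, le_div_iff₀ (by positivity)]
    linarith
  have hx2 : x < 2 * L := by
    rw [div_lt_iff₀ (by positivity), pow_succ] at ha2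
    rw [hx, div_lt_iff₀ (by positivity)]
    linarith
  have hx0 : 0 ≤ x := hL0.le.trans hx1
  have hm1 : L ≤ ⌊x⌋₊ := Nat.le_floor hx1
  have hm2 : ⌊x⌋₊ < 2 * L := (Nat.floor_lt hx0).2 (by push_cast; exact hx2)
  have hm1' : (L : ℝ) ≤ ⌊x⌋₊ := by exact_mod_cast hm1
  have hm0 : (0 : ℝ) < ⌊x⌋₊ := hL0.trans_le hm1'
  have hf1 : (⌊x⌋₊ : ℝ) ≤ x := Nat.floor_le hx0
  have hf2 : x < ⌊x⌋₊ + 1 := Nat.lt_floor_add_one x
  have e : ρ / ⌊x⌋₊ / 2 ^ a = x / ⌊x⌋₊ * s := by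
    conv_lhs => rw [hρ]
    field_simp
  refine ⟨⌊x⌋₊, a, hm1, hm2, ?_, ?_⟩
  · rw [e]
    exact le_mul_of_one_le_left hs.le ((one_le_div hm0).2 hf1)
  · rw [e]
    refine mul_le_mul_of_nonneg_right ?_ hs.le
    rw [div_le_iff₀ hm0]
    have : 1 ≤ 1 / (L : ℝ) * ⌊x⌋₊ := by
      rw [one_div, inv_mul_eq_div]; exact (one_le_div hL0).2 hm1'
    linarith

theorem Fill2_parts {κ : Type} (N : ℕ → ℕ) (T : Finset ℕ) : ∀ F : Finset κ,
    ∑ m ∈ T, N m ≤ F.card → ∃ G : ℕ → Finset κ, (∀ m ∈ T, G m ⊆ F ∧ (G m).card = N m) ∧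
      ∀ m ∈ T, ∀ m' ∈ T, m ≠ m' → Disjoint (G m) (G m') := by
  classical
  induction T using Finset.induction_on with
  | empty => exact fun F _ => ⟨fun _ => ∅, by simp, by simp⟩
  | insert a T ha ih =>
    intro F h
    rw [sum_insert ha] at h
    obtain ⟨G0, hG0, hc⟩ := exists_subset_card_eq (s := F) (n := N a) (by omega)
    obtain ⟨G, h1, h2⟩ := ih (F \ G0) (by rw [card_sdiff_of_subset hG0]; omega)
    have hne : ∀ m ∈ T, m ≠ a := fun m hm h => ha (h ▸ hm)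
    have hdis : ∀ m ∈ T, Disjoint G0 (G m) := fun m hm =>
      disjoint_sdiff.mono_right (h1 m hm).1
    refine ⟨fun m => if m = a then G0 else G m, fun m hm => ?_, fun m hm m' hm' hmm => ?_⟩
    · rcases mem_insert.1 hm with rfl | hm
      · simp only [if_true]; exact ⟨hG0, hc⟩
      · simp only [if_neg (hne m hm)]
        exact ⟨(h1 m hm).1.trans sdiff_subset, (h1 m hm).2⟩
    · rcases mem_insert.1 hm with rfl | k1 <;> rcases mem_insert.1 hm' with rfl | k2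
      · exact absurd rfl hmm
      · simp only [if_true, if_neg (hne m' k2)]; exact hdis m' k2
      · simp only [if_true, if_neg (hne m k1)]; exact (hdis m k1).symm
      · simp only [if_neg (hne m k1), if_neg (hne m' k2)]; exact h2 m k1 m' k2 hmm

theorem Fill2_class {n : ℕ} {ι κ : Type} (G : Finset κ) (cl : κ → Cell n) {ρ : ℝ} (hρ : 0 < ρ)
    (hd : ∀ q ∈ G, ∀ q' ∈ G, q ≠ q' → Disjoint (img (cl q) ρ) (img (cl q') ρ))
    {m : ℕ} (hm : 1 ≤ m) (B : Finset ι) (lev : ι → ℕ) (K : ℕ) (hK : ∀ i ∈ B, lev i ≤ K)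
    (hc : ∑ i ∈ B, (2 ^ n) ^ (K - lev i) ≤ G.card * m ^ n * (2 ^ n) ^ K) :
    ∃ c : ι → Cell n, (∀ i ∈ B, ∃ q ∈ G, img (c i) (ρ / m / 2 ^ lev i) ⊆ img (cl q) ρ) ∧
      ∀ i ∈ B, ∀ j ∈ B, i ≠ j →
        Disjoint (img (c i) (ρ / m / 2 ^ lev i)) (img (c j) (ρ / m / 2 ^ lev j)) := by
  choose sp h1 h2 using fun q : κ => split (cl q) hρ hm
  have hm0 : (0 : ℝ) < m := by exact_mod_cast hm
  obtain ⟨c, hc1, hc2⟩ := kraft (n := n) (ι := ι) K (κ × (Fin n → Fin m)) (G ×ˢ univ)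
    (fun p => sp p.1 p.2) (ρ / m) B lev (div_pos hρ hm0) hK
    (by
      rintro ⟨q, f⟩ hq ⟨q', f'⟩ hq' hne
      by_cases hqq : q = q'
      · subst hqq
        exact h2 q f f' fun h => hne (by rw [h])
      · exact (hd q (mem_product.1 hq).1 q' (mem_product.1 hq').1 hqq).mono (h1 q f) (h1 q' f'))
    (by
      rw [card_product, card_univ, Fintype.card_fun, Fintype.card_fin, Fintype.card_fin]
      exact hc)
  refine ⟨c, fun i hi => ?_, hc2⟩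
  obtain ⟨p, hp, hs⟩ := hc1 i hi
  exact ⟨p.1, (mem_product.1 hp).1, hs.trans (h1 p.1 p.2)⟩

/-- Filling equal cells almost completely by much smaller cells. -/
theorem fill2 {n : ℕ} {ι κ : Type} (F : Finset κ) (cl : κ → Cell n) {ρ : ℝ} (A : Finset ι)
    (s : ι → ℝ) {L : ℕ} (hL : 1 ≤ L) (hρ : 0 < ρ) (hs : ∀ i ∈ A, 0 < s i ∧ L * s i ≤ ρ)
    (hd : ∀ q ∈ F, ∀ q' ∈ F, q ≠ q' → Disjoint (img (cl q) ρ) (img (cl q') ρ))
    (h : (1 + 1 / L) ^ n * ∑ i ∈ A, s i ^ n + L * ρ ^ n ≤ F.card * ρ ^ n) :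
    ∃ c : ι → Cell n, (∀ i ∈ A, ∃ q ∈ F, img (c i) (s i) ⊆ img (cl q) ρ) ∧
      ∀ i ∈ A, ∀ j ∈ A, i ≠ j → Disjoint (img (c i) (s i)) (img (c j) (s j)) := by
  classical
  have hr : ∀ i, ∃ m a : ℕ, i ∈ A → L ≤ m ∧ m < 2 * L ∧ s i ≤ ρ / m / 2 ^ a ∧
      ρ / m / 2 ^ a ≤ (1 + 1 / L) * s i := by
    intro i
    by_cases hi : i ∈ A
    · obtain ⟨m, a, h⟩ := round_size hL (hs i hi).1 (hs i hi).2
      exact ⟨m, a, fun _ => h⟩
    · exact ⟨0, 0, fun h => absurd h hi⟩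
  choose μ a hμ using hr
  obtain ⟨K, hK⟩ : ∃ K, ∀ i ∈ A, a i ≤ K := ⟨A.sup a, fun i hi => le_sup hi⟩
  have hmem : ∀ i ∈ A, μ i ∈ Ico L (2 * L) := fun i hi => mem_Ico.2 ⟨(hμ i hi).1, (hμ i hi).2.1⟩
  obtain ⟨W, hW⟩ : ∃ W : ℕ → ℕ, ∀ m, W m = ∑ i ∈ A.filter (fun i => μ i = m), (2 ^ n) ^ (K - a i) :=
    ⟨_, fun _ => rfl⟩
  have hρn : 0 < ρ ^ n := pow_pos hρ n
  have hN : ∑ m ∈ Ico L (2 * L), (W m / (m ^ n * (2 ^ n) ^ K) + 1) ≤ F.card := by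
    have k1 : ∀ m ∈ Ico L (2 * L), ((W m / (m ^ n * (2 ^ n) ^ K) + 1 : ℕ) : ℝ) * ρ ^ n ≤
        ∑ i ∈ A.filter (fun i => μ i = m), (1 + 1 / L) ^ n * s i ^ n + ρ ^ n := by
      intro m hm
      have hm0 : (0 : ℝ) < m := by exact_mod_cast hL.trans (mem_Ico.1 hm).1
      rw [Nat.cast_add, Nat.cast_one, add_mul, one_mul]
      refine add_le_add_left ((mul_le_mul_of_nonneg_right Nat.cast_div_le hρn.le).trans ?_) _
      rw [hW, Nat.cast_sum, sum_div, sum_mul]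
      refine sum_le_sum fun i hi => ?_
      obtain ⟨hiA, hi2⟩ := mem_filter.1 hi
      have h4 := (hμ i hiA).2.2.2
      rw [hi2] at h4
      rw [← mul_pow]
      refine le_trans (le_of_eq ?_) (pow_le_pow_left₀ (by positivity) h4 n)
      obtain ⟨b, hb⟩ := Nat.exists_eq_add_of_le (hK i hiA)
      rw [hb, Nat.add_sub_cancel_left]
      push_cast
      rw [div_pow, div_pow, ← pow_mul 2 (a i) n, mul_comm (a i) n, pow_mul, pow_add]
      field_simp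
    have k2 := sum_le_sum k1
    rw [← sum_mul, sum_add_distrib, sum_fiberwise_of_maps_to hmem, ← mul_sum, sum_const,
      Nat.card_Ico, show 2 * L - L = L by omega, nsmul_eq_mul, ← Nat.cast_sum] at k2
    exact_mod_cast le_of_mul_le_mul_right (k2.trans h) hρn
  obtain ⟨G, hG1, hG2⟩ := Fill2_parts _ _ F hN
  have hcl : ∀ m : ℕ, ∃ c : ι → Cell n, m ∈ Ico L (2 * L) →
      (∀ i ∈ A.filter (fun i => μ i = m), ∃ q ∈ G m,
        img (c i) (ρ / m / 2 ^ a i) ⊆ img (cl q) ρ) ∧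
      ∀ i ∈ A.filter (fun i => μ i = m), ∀ j ∈ A.filter (fun i => μ i = m), i ≠ j →
        Disjoint (img (c i) (ρ / m / 2 ^ a i)) (img (c j) (ρ / m / 2 ^ a j)) := by
    intro m
    by_cases hm : m ∈ Ico L (2 * L)
    · have hm1 : 1 ≤ m := hL.trans (mem_Ico.1 hm).1
      obtain ⟨c, hc⟩ := Fill2_class (G m) cl hρ
        (fun q hq q' hq' => hd q ((hG1 m hm).1 hq) q' ((hG1 m hm).1 hq')) hm1
        (A.filter fun i => μ i = m) a K (fun i hi => hK i (mem_filter.1 hi).1) (by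
          rw [← hW, (hG1 m hm).2, mul_assoc, mul_comm]
          exact (Nat.lt_mul_div_succ _ (by positivity)).le)
      exact ⟨c, fun _ => hc⟩
    · exact ⟨fun _ => (1, 0), fun h => absurd h hm⟩
  choose c hc using hcl
  have hin : ∀ i ∈ A, i ∈ A.filter (fun j => μ j = μ i) := fun i hi => mem_filter.2 ⟨hi, rfl⟩
  have hsub : ∀ i ∈ A, ∃ q ∈ G (μ i), img (c (μ i) i) (s i) ⊆ img (cl q) ρ := fun i hi => by
    obtain ⟨q, hq, h⟩ := (hc (μ i) (hmem i hi)).1 i (hin i hi)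
    exact ⟨q, hq, (img_mono _ (hμ i hi).2.2.1).trans h⟩
  refine ⟨fun i => c (μ i) i, fun i hi => ?_, fun i hi j hj hij => ?_⟩
  · obtain ⟨q, hq, h⟩ := hsub i hi
    exact ⟨q, (hG1 _ (hmem i hi)).1 hq, h⟩
  · by_cases hm : μ j = μ i
    · have h1 := (hc (μ i) (hmem i hi)).2 i (hin i hi) j (mem_filter.2 ⟨hj, hm⟩) hij
      have h2 := (hμ j hj).2.2.1
      beta_reduce
      rw [hm] at h2 ⊢
      exact h1.mono (img_mono _ (hμ i hi).2.2.1) (img_mono _ h2)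
    · obtain ⟨q, hq, h1⟩ := hsub i hi
      obtain ⟨q', hq', h2⟩ := hsub j hj
      have hne : q ≠ q' := by
        rintro rfl
        exact disjoint_left.1 (hG2 _ (hmem i hi) _ (hmem j hj) (Ne.symm hm)) hq hq'
      exact (hd q ((hG1 _ (hmem i hi)).1 hq) q' ((hG1 _ (hmem j hj)).1 hq') hne).mono h1 h2

end Vale.Agent.P209
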