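import Vale.Agent.P209.Comb
import Vale.Agent.P209.Fill2

namespace Vale.Agent.P209

open Finset

theorem card_above (n M m : ℕ) (h : m ≤ M) :
    ((univ.filter fun f : Fin n → Fin M => ∃ l, m ≤ (f l : ℕ)).card : ℝ) =
      (M : ℝ) ^ n - (m : ℝ) ^ n := by
  have h1 := Finset.card_filter_add_card_filter_not (s := (univ : Finset (Fin n → Fin M)))
    (fun f : Fin n → Fin M => ∃ l, m ≤ (f l : ℕ))
  have h2 : (univ.filter fun f : Fin n → Fin M => ¬ ∃ l, m ≤ (f l : ℕ)) =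
      Fintype.piFinset (fun _ : Fin n => univ.filter fun i : Fin M => (i : ℕ) < m) := by
    ext f
    simp [Fintype.mem_piFinset]
  rw [h2, Fintype.card_piFinset, Finset.card_univ, Fintype.card_fun, Fintype.card_fin,
    Fintype.card_fin] at h1
  simp only [Fin.card_filter_val_lt, min_eq_right h, Finset.prod_const, Finset.card_univ,
    Fintype.card_fin] at h1
  have h3 : ((univ.filter fun f : Fin n → Fin M => ∃ l, m ≤ (f l : ℕ)).card : ℝ) + (m : ℝ) ^ n =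
      (M : ℝ) ^ n := by exact_mod_cast h1
  linarith

theorem comb2_exL (n : ℕ) {ε : ℝ} (hε : 0 < ε) :
    ∃ L : ℕ, 1 ≤ L ∧ (1 + 1 / (L : ℝ)) ^ n * (1 - ε) ≤ 1 - ε / 2 := by
  have h0 : Filter.Tendsto (fun L : ℕ => 1 / (L : ℝ)) Filter.atTop (nhds 0) :=
    tendsto_one_div_atTop_nhds_zero_nat
  have h1 : Filter.Tendsto (fun L : ℕ => (1 + 1 / (L : ℝ)) ^ n * (1 - ε)) Filter.atTop
      (nhds ((1 + 0) ^ n * (1 - ε))) := ((h0.const_add 1).pow n).mul_const _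
  have h2 : ((1 : ℝ) + 0) ^ n * (1 - ε) < 1 - ε / 2 := by
    rw [add_zero, one_pow]; linarith
  obtain ⟨L, hL1, hL2⟩ := ((h1.eventually (gt_mem_nhds h2)).and
    (Filter.eventually_ge_atTop 1)).exists
  exact ⟨L, hL2, hL1.le⟩

theorem comb2_exM {n : ℕ} (hn : 1 ≤ n) (L : ℕ) {ε : ℝ} (hε : 0 < ε) :
    ∃ M : ℕ, 1 ≤ M ∧ (1 + 1 / (M : ℝ)) ^ n - 1 + L * (1 / (M : ℝ)) ^ n ≤ ε / 2 := by
  have h0 : Filter.Tendsto (fun L : ℕ => 1 / (L : ℝ)) Filter.atTop (nhds 0) :=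
    tendsto_one_div_atTop_nhds_zero_nat
  have h1 : Filter.Tendsto (fun M : ℕ => (1 + 1 / (M : ℝ)) ^ n - 1 + L * (1 / (M : ℝ)) ^ n)
      Filter.atTop (nhds ((1 + 0) ^ n - 1 + L * (0 : ℝ) ^ n)) :=
    (((h0.const_add 1).pow n).sub_const 1).add ((h0.pow n).const_mul _)
  have h2 : ((1 : ℝ) + 0) ^ n - 1 + L * (0 : ℝ) ^ n < ε / 2 := by
    rw [add_zero, one_pow, zero_pow (by omega)]; linarith
  obtain ⟨M, hM1, hM2⟩ := ((h1.eventually (gt_mem_nhds h2)).and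
    (Filter.eventually_ge_atTop 1)).exists
  exact ⟨M, hM2, hM1.le⟩

theorem comb2 {n : ℕ} (hn : 1 ≤ n) {ε : ℝ} (hε : 0 < ε) : ∃ δ : ℝ, 0 < δ ∧
    ∀ (k : ℕ) (s : Fin k → ℝ) (R : ℝ) (i₀ : Fin k), 0 < R → (∀ i, 0 < s i) →
      (∀ i, i ≠ i₀ → s i ≤ δ * R) → ∑ i, s i ^ n ≤ (1 - ε) * R ^ n → CP n s R := by
  obtain ⟨L, hL, hLa⟩ := comb2_exL n hε
  obtain ⟨M, hM, hMa⟩ := comb2_exM hn L hε
  have hL0 : (0 : ℝ) < L := by exact_mod_cast hL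
  have hM0 : (0 : ℝ) < M := by exact_mod_cast hM
  refine ⟨1 / (L * M), by positivity, ?_⟩
  intro k s R i₀ hR hs hsm hvol
  obtain ⟨ρ, hρ⟩ : ∃ ρ : ℝ, ρ = R / M := ⟨_, rfl⟩
  have hρ0 : 0 < ρ := by rw [hρ]; positivity
  have hMρ : (M : ℝ) * ρ = R := by rw [hρ]; field_simp
  have hRn : 0 < R ^ n := pow_pos hR n
  have hsplit : s i₀ ^ n + ∑ i ∈ univ.erase i₀, s i ^ n = ∑ i, s i ^ n :=
    Finset.add_sum_erase univ (fun i => s i ^ n) (mem_univ i₀)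
  have hS0 : 0 ≤ ∑ i ∈ univ.erase i₀, s i ^ n := Finset.sum_nonneg fun i _ => (pow_pos (hs i) n).le
  have hs0n : 0 < s i₀ ^ n := pow_pos (hs i₀) n
  have hs0R : s i₀ ≤ R := by
    refine le_of_pow_le_pow_left₀ (n := n) (by omega) hR.le ?_
    nlinarith [mul_pos hε hRn]
  obtain ⟨m, hm⟩ : ∃ m : ℕ, m = ⌈s i₀ / ρ⌉₊ := ⟨_, rfl⟩
  have hmM : m ≤ M := by
    rw [hm, Nat.ceil_le, div_le_iff₀ hρ0, hMρ]; exact hs0R
  have hst : s i₀ ≤ m * ρ := by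
    rw [← div_le_iff₀ hρ0, hm]; exact Nat.le_ceil _
  have hts : m * ρ ≤ s i₀ + ρ := by
    have h1 : (m : ℝ) < s i₀ / ρ + 1 := by
      rw [hm]; exact Nat.ceil_lt_add_one (div_pos (hs i₀) hρ0).le
    have h2 : (s i₀ / ρ + 1) * ρ = s i₀ + ρ := by field_simp
    rw [← h2]
    exact mul_le_mul_of_nonneg_right h1.le hρ0.le
  have htR : m * ρ ≤ R := by
    rw [← hMρ]
    exact mul_le_mul_of_nonneg_right (by exact_mod_cast hmM) hρ0.le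
  obtain ⟨cl, hc1, hc2, hc3⟩ := grid n M hρ0 (le_refl (0 : ℝ))
  have hkey : (1 + 1 / (L : ℝ)) ^ n * ∑ i ∈ univ.erase i₀, s i ^ n + L * ρ ^ n ≤
      ((univ.filter fun f : Fin n → Fin M => ∃ l, m ≤ (f l : ℕ)).card : ℝ) * ρ ^ n := by
    rw [card_above n M m hmM, sub_mul, ← mul_pow, ← mul_pow, hMρ]
    have ha : (1 : ℝ) ≤ (1 + 1 / (L : ℝ)) ^ n :=
      one_le_pow₀ (by have : (0 : ℝ) < 1 / L := by positivity
                      linarith)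
    have h1 : (m * ρ) ^ n ≤ (s i₀ + ρ) ^ n := pow_le_pow_left₀ (by positivity) hts n
    have h2 : (s i₀ + ρ) ^ n - s i₀ ^ n ≤ (R + ρ) ^ n - R ^ n :=
      pow_sub_pow_mono n (hs i₀).le hρ0.le hs0R le_rfl
    have h3 : (R + ρ) ^ n = (1 + 1 / (M : ℝ)) ^ n * R ^ n := by
      rw [← mul_pow, hρ]; congr 1; field_simp
    have h4 : ρ ^ n = (1 / (M : ℝ)) ^ n * R ^ n := by
      rw [← mul_pow, hρ]; congr 1; field_simp
    have h5 : ((1 + 1 / (M : ℝ)) ^ n - 1 + L * (1 / (M : ℝ)) ^ n) * R ^ n ≤ ε / 2 * R ^ n :=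
      mul_le_mul_of_nonneg_right hMa hRn.le
    have h6 : (1 + 1 / (L : ℝ)) ^ n * (1 - ε) * R ^ n ≤ (1 - ε / 2) * R ^ n :=
      mul_le_mul_of_nonneg_right hLa hRn.le
    have h7 : (1 + 1 / (L : ℝ)) ^ n * ∑ i ∈ univ.erase i₀, s i ^ n ≤
        (1 + 1 / (L : ℝ)) ^ n * ((1 - ε) * R ^ n - s i₀ ^ n) :=
      mul_le_mul_of_nonneg_left (by linarith) (by linarith)
    have h8 : s i₀ ^ n ≤ (1 + 1 / (L : ℝ)) ^ n * s i₀ ^ n := le_mul_of_one_le_left hs0n.le ha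
    rw [h4]
    nlinarith
  obtain ⟨c, hd1, hd2⟩ := fill2 (univ.filter fun f : Fin n → Fin M => ∃ l, m ≤ (f l : ℕ)) cl
    (univ.erase i₀) s hL hρ0
    (fun i hi => ⟨hs i, by
      have h1 := hsm i (Finset.ne_of_mem_erase hi)
      calc (L : ℝ) * s i ≤ L * (1 / (L * M) * R) := mul_le_mul_of_nonneg_left h1 hL0.le
        _ = ρ := by rw [hρ]; field_simp⟩)
    (fun q _ q' _ hq => hc3 q q' hq) hkey
  refine cp_of i₀ hst htR c ?_ ?_ ?_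
  · intro i hi
    obtain ⟨q, _, hq⟩ := hd1 i (Finset.mem_erase.2 ⟨hi, mem_univ i⟩)
    have := hc1 q
    rw [zero_add, hMρ] at this
    exact hq.trans this
  · intro i hi y hy
    obtain ⟨q, hqF, hq⟩ := hd1 i (Finset.mem_erase.2 ⟨hi, mem_univ i⟩)
    obtain ⟨l, hl⟩ := (Finset.mem_filter.1 hqF).2
    obtain ⟨j, hj⟩ := hc2 q y (hq hy) l
    refine ⟨j, lt_of_le_of_lt ?_ hj⟩
    rw [zero_add]
    exact mul_le_mul_of_nonneg_right (by exact_mod_cast hl) hρ0.le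
  · intro i hi j hj hij
    exact hd2 i (Finset.mem_erase.2 ⟨hi, mem_univ i⟩) j (Finset.mem_erase.2 ⟨hj, mem_univ j⟩) hij

end Vale.Agent.P209
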