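import Mathlib

/-! P209: definitions. -/

namespace Vale.Agent.P209

open scoped ContDiff

/-- The standard symplectic form `∑ dx_j ∧ dy_j` on `ℂ^n`. -/
def omega {n : ℕ} (v w : Fin n → ℂ) : ℝ :=
  ∑ j, ((v j).re * (w j).im - (v j).im * (w j).re)

/-- The closed ball of capacity `R`. -/
def cball (n : ℕ) (R : ℝ) : Set (Fin n → ℂ) := {z | Real.pi * ∑ j, ‖z j‖ ^ 2 ≤ R}

/-- The open ball of capacity `R`. -/
def oball (n : ℕ) (R : ℝ) : Set (Fin n → ℂ) := {z | Real.pi * ∑ j, ‖z j‖ ^ 2 < R}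

/-- `φ` is smooth, injective and symplectic on `U`. -/
structure SympOn {n : ℕ} (φ : (Fin n → ℂ) → (Fin n → ℂ)) (U : Set (Fin n → ℂ)) : Prop where
  smooth : ContDiffOn ℝ ∞ φ U
  inj : Set.InjOn φ U
  symp : ∀ z ∈ U, ∀ v w, omega (fderiv ℝ φ z v) (fderiv ℝ φ z w) = omega v w

/-- `φ` is a symplectic embedding of the closed ball of capacity `r`. -/
def SympEmb (n : ℕ) (r : ℝ) (φ : (Fin n → ℂ) → (Fin n → ℂ)) : Prop :=
  ∃ U, IsOpen U ∧ cball n r ⊆ U ∧ SympOn φ U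

/-- The closed balls of capacities `r i` embed disjointly into the open ball of capacity `R`. -/
def Packs (n : ℕ) {k : ℕ} (r : Fin k → ℝ) (R : ℝ) : Prop :=
  ∃ φ : Fin k → (Fin n → ℂ) → (Fin n → ℂ), (∀ i, SympEmb n (r i) (φ i)) ∧
    (∀ i, φ i '' cball n (r i) ⊆ oball n R) ∧
    ∀ i j, i ≠ j → Disjoint (φ i '' cball n (r i)) (φ j '' cball n (r j))

end Vale.Agent.P209
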