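import Vale.Agent.P209.Twist

namespace Vale.Agent.P209

open scoped ContDiff

theorem AreaP.id : AreaP id := by
  refine ⟨contDiff_id, Function.injective_id, fun z v w => ?_⟩
  rw [fderiv_id]
  rfl

theorem AreaP.comp {S S' : ℂ → ℂ} (h : AreaP S) (h' : AreaP S') : AreaP (S ∘ S') := by
  refine ⟨h.smooth.comp h'.smooth, h.inj.comp h'.inj, fun z v w => ?_⟩
  rw [fderiv_comp z (h.smooth.differentiable (by simp) _) (h'.smooth.differentiable (by simp) _)]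
  simp only [ContinuousLinearMap.comp_apply]
  rw [h.area, h'.area]

theorem drag_aux {e : ℝ} (he : 0 < e) (N : ℕ) :
    ∃ ψ : ℂ → ℂ, AreaP ψ ∧ (∀ z, ‖ψ z‖ ≤ ‖z‖ + 4 * e) ∧
      (∀ z, ‖ψ z‖ ≤ max ‖z‖ ((2 * N + 1) * e)) ∧
      ∀ z, ψ z = 0 → z = ((2 * N * e : ℝ) : ℂ) := by
  induction N with
  | zero =>
    refine ⟨id, AreaP.id, fun z => ?_, fun z => le_max_left _ _, fun z hz => ?_⟩
    · change ‖z‖ ≤ _
      linarith
    · simpa using hz
  | succ N ih =>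
    obtain ⟨ψ, h1, h2, h3, h4⟩ := ih
    obtain ⟨S, s1, s2, s3, s4⟩ := twist (((2 * N + 1) * e : ℝ) : ℂ) he
    have hN : (0 : ℝ) ≤ N := Nat.cast_nonneg N
    have hc0 : 0 ≤ (2 * (N : ℝ) + 1) * e := by positivity
    have hc : ‖(((2 * N + 1) * e : ℝ) : ℂ)‖ = (2 * N + 1) * e := by
      rw [Complex.norm_real, Real.norm_of_nonneg hc0]
    have key : ∀ z, ‖z - (((2 * N + 1) * e : ℝ) : ℂ)‖ < 2 * e →
        ‖ψ (S z)‖ ≤ (2 * N + 1) * e + 2 * e ∧ (2 * N + 1) * e - 2 * e ≤ ‖z‖ := by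
      intro z hz
      have a1 := norm_sub_norm_le (S z) (((2 * N + 1) * e : ℝ) : ℂ)
      have a2 := norm_sub_norm_le (((2 * N + 1) * e : ℝ) : ℂ) z
      rw [s2, hc] at a1
      rw [norm_sub_rev, hc] at a2
      refine ⟨(h3 _).trans (max_le ?_ ?_), ?_⟩ <;> linarith
    refine ⟨ψ ∘ S, h1.comp s1, fun z => ?_, fun z => ?_, fun z hz => ?_⟩
    · rcases lt_or_ge ‖z - (((2 * N + 1) * e : ℝ) : ℂ)‖ (2 * e) with hz | hz
      · obtain ⟨k1, k2⟩ := key z hz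
        change ‖ψ (S z)‖ ≤ _
        linarith
      · change ‖ψ (S z)‖ ≤ _
        rw [s3 z hz]
        exact h2 z
    · have e1 : (2 * ((N + 1 : ℕ) : ℝ) + 1) * e = (2 * N + 1) * e + 2 * e := by
        push_cast
        ring
      rw [e1]
      rcases lt_or_ge ‖z - (((2 * N + 1) * e : ℝ) : ℂ)‖ (2 * e) with hz | hz
      · exact (key z hz).1.trans (le_max_right _ _)
      · change ‖ψ (S z)‖ ≤ _
        rw [s3 z hz]
        exact (h3 z).trans (max_le_max le_rfl (by linarith))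
    · have a1 : S z = ((2 * N * e : ℝ) : ℂ) := h4 _ hz
      have a2 : S z = S ((((2 * N + 1) * e : ℝ) : ℂ) + e) := by
        rw [a1, s4]
        push_cast
        ring
      rw [s1.inj a2]
      push_cast
      ring

/-- Dragging the origin out of a disc while hardly increasing the modulus. -/
theorem drag (ρ : ℝ) {ε : ℝ} (hε : 0 < ε) :
    ∃ ψ : ℂ → ℂ, AreaP ψ ∧ (∀ z, ‖ψ z‖ ≤ ‖z‖ + ε) ∧ ∀ z, ‖z‖ ≤ ρ → ψ z ≠ 0 := by
  have he : 0 < ε / 4 := by positivity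
  obtain ⟨N, hN⟩ := exists_nat_gt (ρ / (2 * (ε / 4)))
  obtain ⟨ψ, h1, h2, -, h4⟩ := drag_aux he N
  refine ⟨ψ, h1, fun z => (h2 z).trans (by linarith), fun z hz h0 => ?_⟩
  rw [div_lt_iff₀ (by positivity)] at hN
  have h5 : 0 ≤ 2 * (N : ℝ) * (ε / 4) := by positivity
  rw [h4 z h0, Complex.norm_real, Real.norm_of_nonneg h5] at hz
  linarith

end Vale.Agent.P209
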