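import Vale.Agent.P209.Kraft

namespace Vale.Agent.P209

open Finset

theorem fill_of_lev {n : ℕ} {ι κ : Type} (F : Finset κ) (cl : κ → Cell n) {ρ : ℝ} (A : Finset ι)
    (s : ι → ℝ) (hρ : 0 < ρ) (L : ℕ) (lev : ι → ℕ) (hL : ∀ i ∈ A, lev i ≤ L)
    (hs : ∀ i ∈ A, s i ≤ ρ / 2 ^ lev i)
    (hd : ∀ q ∈ F, ∀ q' ∈ F, q ≠ q' → Disjoint (img (cl q) ρ) (img (cl q') ρ))
    (h : ∑ i ∈ A, (2 ^ n) ^ (L - lev i) ≤ F.card * (2 ^ n) ^ L) :
    ∃ c : ι → Cell n, (∀ i ∈ A, ∃ q ∈ F, img (c i) (s i) ⊆ img (cl q) ρ) ∧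
      ∀ i ∈ A, ∀ j ∈ A, i ≠ j → Disjoint (img (c i) (s i)) (img (c j) (s j)) := by
  obtain ⟨c, h1, h2⟩ := kraft L κ F cl ρ A lev hρ hL hd h
  refine ⟨c, fun i hi => ?_, fun i hi j hj hij => ?_⟩
  · obtain ⟨q, hq, hsub⟩ := h1 i hi
    exact ⟨q, hq, (img_mono _ (hs i hi)).trans hsub⟩
  · exact (h2 i hi j hj hij).mono (img_mono _ (hs i hi)) (img_mono _ (hs j hj))

/-- Filling equal cells by smaller cells: either few of them, or small total volume. -/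
theorem fill {n : ℕ} {ι κ : Type} (F : Finset κ) (cl : κ → Cell n) {ρ : ℝ} (A : Finset ι)
    (s : ι → ℝ) (hρ : 0 < ρ) (hs : ∀ i ∈ A, 0 < s i ∧ s i ≤ ρ)
    (hd : ∀ q ∈ F, ∀ q' ∈ F, q ≠ q' → Disjoint (img (cl q) ρ) (img (cl q') ρ))
    (h : A.card ≤ F.card ∨ 2 ^ n * ∑ i ∈ A, s i ^ n ≤ F.card * ρ ^ n) :
    ∃ c : ι → Cell n, (∀ i ∈ A, ∃ q ∈ F, img (c i) (s i) ⊆ img (cl q) ρ) ∧
      ∀ i ∈ A, ∀ j ∈ A, i ≠ j → Disjoint (img (c i) (s i)) (img (c j) (s j)) := by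
  rcases h with h | h
  · refine fill_of_lev F cl A s hρ 0 (fun _ => 0) (fun _ _ => le_rfl) (fun i hi => ?_) hd ?_
    · simpa using (hs i hi).2
    · simpa using h
  · have hex : ∀ i, ∃ l : ℕ, i ∈ A → s i ≤ ρ / 2 ^ l ∧ ρ / 2 ^ l ≤ 2 * s i := by
      intro i
      by_cases hi : i ∈ A
      · obtain ⟨h0, h1⟩ := hs i hi
        have hx : (1 : ℝ) ≤ ρ / s i := by rw [le_div_iff₀ h0]; linarith
        obtain ⟨l, hl1, hl2⟩ := exists_nat_pow_near hx (one_lt_two (α := ℝ))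
        have hp : (0 : ℝ) < 2 ^ l := by positivity
        rw [le_div_iff₀ h0] at hl1
        rw [div_lt_iff₀ h0, pow_succ] at hl2
        refine ⟨l, fun _ => ⟨?_, ?_⟩⟩
        · rw [le_div_iff₀ hp]; linarith
        · rw [div_le_iff₀ hp]; linarith
      · exact ⟨0, fun h => absurd h hi⟩
    choose lev hlev using hex
    refine fill_of_lev F cl A s hρ (A.sup lev) lev (fun i hi => Finset.le_sup hi)
      (fun i hi => (hlev i hi).1) hd ?_
    set L := A.sup lev with hLdef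
    have hρn : (0 : ℝ) < ρ ^ n := by positivity
    have key : ∀ i ∈ A, ((2 : ℝ) ^ n) ^ (L - lev i) * ρ ^ n ≤
        ((2 : ℝ) ^ n) ^ L * (2 ^ n * s i ^ n) := by
      intro i hi
      have hle : lev i ≤ L := Finset.le_sup hi
      obtain ⟨d, hd'⟩ := Nat.exists_eq_add_of_le hle
      have hp : (0 : ℝ) < 2 ^ lev i := by positivity
      have h2 := (hlev i hi).2
      rw [div_le_iff₀ hp] at h2
      have h3 : ρ ^ n ≤ (2 * s i * 2 ^ lev i) ^ n := pow_le_pow_left₀ hρ.le h2 n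
      have h4 : L - lev i = d := by omega
      rw [h4, hd']
      calc ((2 : ℝ) ^ n) ^ d * ρ ^ n ≤ ((2 : ℝ) ^ n) ^ d * (2 * s i * 2 ^ lev i) ^ n :=
            mul_le_mul_of_nonneg_left h3 (by positivity)
        _ = ((2 : ℝ) ^ n) ^ (lev i + d) * (2 ^ n * s i ^ n) := by
            rw [mul_pow, mul_pow, ← pow_mul 2 (lev i) n, pow_add, ← pow_mul 2 n (lev i),
              mul_comm n (lev i)]
            ring
    have h5 : (∑ i ∈ A, ((2 : ℝ) ^ n) ^ (L - lev i)) * ρ ^ n ≤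
        (F.card * ((2 : ℝ) ^ n) ^ L) * ρ ^ n := by
      calc (∑ i ∈ A, ((2 : ℝ) ^ n) ^ (L - lev i)) * ρ ^ n
          = ∑ i ∈ A, ((2 : ℝ) ^ n) ^ (L - lev i) * ρ ^ n := Finset.sum_mul _ _ _
        _ ≤ ∑ i ∈ A, ((2 : ℝ) ^ n) ^ L * (2 ^ n * s i ^ n) := Finset.sum_le_sum key
        _ = ((2 : ℝ) ^ n) ^ L * (2 ^ n * ∑ i ∈ A, s i ^ n) := by
            rw [← Finset.mul_sum, ← Finset.mul_sum]
        _ ≤ ((2 : ℝ) ^ n) ^ L * (F.card * ρ ^ n) :=
            mul_le_mul_of_nonneg_left h (by positivity)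
        _ = (F.card * ((2 : ℝ) ^ n) ^ L) * ρ ^ n := by ring
    have h6 := le_of_mul_le_mul_right h5 hρn
    exact_mod_cast h6

theorem pow_sub_pow_mono (n : ℕ) {x d x' d' : ℝ} (hx : 0 ≤ x) (hd : 0 ≤ d) (h : x ≤ x')
    (h' : d ≤ d') : (x + d) ^ n - x ^ n ≤ (x' + d') ^ n - x' ^ n := by
  induction n with
  | zero => simp
  | succ n ih =>
    have e1 : (x + d) ^ (n + 1) - x ^ (n + 1) =
        (x + d) * ((x + d) ^ n - x ^ n) + d * x ^ n := by ring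
    have e2 : (x' + d') ^ (n + 1) - x' ^ (n + 1) =
        (x' + d') * ((x' + d') ^ n - x' ^ n) + d' * x' ^ n := by ring
    have h1 : 0 ≤ (x + d) ^ n - x ^ n :=
      sub_nonneg.2 (pow_le_pow_left₀ hx (by linarith) n)
    have h2 : x ^ n ≤ x' ^ n := pow_le_pow_left₀ hx h n
    have h3 : 0 ≤ x ^ n := pow_nonneg hx n
    rw [e1, e2]
    exact add_le_add (mul_le_mul (by linarith) ih h1 (by linarith))
      (mul_le_mul h' h2 h3 (by linarith))

theorem card_top (n m : ℕ) :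
    ((univ.filter fun f : Fin n → Fin (m + 1) => ∃ l, (f l : ℕ) = m).card : ℝ) =
      ((m : ℝ) + 1) ^ n - (m : ℝ) ^ n := by
  classical
  have h1 : (univ.filter fun f : Fin n → Fin (m + 1) => ¬ ∃ l, (f l : ℕ) = m) =
      Fintype.piFinset fun _ : Fin n => (univ : Finset (Fin (m + 1))).erase (Fin.last m) := by
    ext f
    simp [Fintype.mem_piFinset, Fin.ext_iff]
  have h2 := Finset.card_filter_add_card_filter_not (s := (univ : Finset (Fin n → Fin (m + 1))))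
    (fun f : Fin n → Fin (m + 1) => ∃ l, (f l : ℕ) = m)
  rw [h1, Fintype.card_piFinset] at h2
  simp only [Finset.card_erase_of_mem (Finset.mem_univ _), Finset.card_univ, Fintype.card_fin,
    Finset.prod_const, Fintype.card_pi, Nat.add_sub_cancel] at h2
  have h3 : (((univ.filter fun f : Fin n → Fin (m + 1) => ∃ l, (f l : ℕ) = m).card + m ^ n : ℕ) : ℝ)
      = (((m + 1) ^ n : ℕ) : ℝ) := by rw [h2]
  push_cast at h3
  linarith

end Vale.Agent.P209
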