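import Vale.Agent.P209.Base

namespace Vale.Agent.P209

theorem grid_sort {n M : ℕ} (f : Fin n → Fin M) : ∃ σ : Equiv.Perm (Fin n), ∀ j j', j < j' →
    f (σ j') < f (σ j) ∨ (f (σ j) = f (σ j') ∧ σ j < σ j') := by
  let key : Fin n → (Fin M)ᵒᵈ ×ₗ Fin n := fun l => toLex (OrderDual.toDual (f l), l)
  have hinj : Function.Injective key := fun a b h => congrArg (fun x => (ofLex x).2) h
  have hs : StrictMono (key ∘ Tuple.sort key) :=
    (Tuple.monotone_sort key).strictMono_of_injective (hinj.comp (Tuple.sort key).injective)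
  refine ⟨Tuple.sort key, fun j j' h => ?_⟩
  rcases Prod.Lex.toLex_lt_toLex.1 (hs h) with h1 | ⟨h1, h2⟩
  · exact Or.inl h1
  · exact Or.inr ⟨h1, h2⟩

theorem grid_eq {a b : ℕ} {ρ u v : ℝ} (hu : 0 < u ∧ u < ρ) (hv : 0 < v ∧ v < ρ)
    (h : a * ρ + u = b * ρ + v) : a = b := by
  have hρ : 0 < ρ := hu.1.trans hu.2
  have h1 : (a : ℝ) < b + 1 := lt_of_mul_lt_mul_right (by linarith [hu.1, hv.2]) hρ.le
  have h2 : (b : ℝ) < a + 1 := lt_of_mul_lt_mul_right (by linarith [hu.2, hv.1]) hρ.le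
  have h3 : a < b + 1 := by exact_mod_cast h1
  have h4 : b < a + 1 := by exact_mod_cast h2
  omega

/-- Edgewise subdivision of the order simplex, shifted by `c` along the diagonal. -/
theorem grid (n M : ℕ) {ρ c : ℝ} (hρ : 0 < ρ) (hc : 0 ≤ c) :
    ∃ cl : (Fin n → Fin M) → Cell n,
      (∀ f, img (cl f) ρ ⊆ T n (c + M * ρ)) ∧
      (∀ f, ∀ y ∈ img (cl f) ρ, ∀ l, ∃ j, c + (f l : ℕ) * ρ < y j) ∧
      ∀ f g, f ≠ g → Disjoint (img (cl f) ρ) (img (cl g) ρ) := by
  choose σ hσ using fun f : Fin n → Fin M => grid_sort f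
  refine ⟨fun f => (σ f, fun j => c + (f (σ f j) : ℕ) * ρ), ?_, ?_, ?_⟩
  · rintro f _ ⟨y, hy, rfl⟩
    refine ⟨fun j j' h => ?_, fun j => ?_⟩
    · simp only [cmap]
      rcases hσ f j j' h with h1 | ⟨h1, h2⟩
      · have h2 : ((f (σ f j') : ℕ) : ℝ) + 1 ≤ (f (σ f j) : ℕ) := by
          exact_mod_cast (Fin.lt_def.1 h1)
        have h3 := mul_le_mul_of_nonneg_right h2 hρ.le
        linarith [(hy.2 (σ f j)).1, (hy.2 (σ f j')).2]
      · rw [h1]
        linarith [hy.1 h2]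
    · simp only [cmap]
      have h2 : ((f (σ f j) : ℕ) : ℝ) + 1 ≤ M := by exact_mod_cast (f (σ f j)).2
      have h3 := mul_le_mul_of_nonneg_right h2 hρ.le
      have h4 : 0 ≤ ((f (σ f j) : ℕ) : ℝ) * ρ := by positivity
      constructor <;> linarith [(hy.2 (σ f j)).1, (hy.2 (σ f j)).2]
  · rintro f _ ⟨y, hy, rfl⟩ l
    refine ⟨(σ f).symm l, ?_⟩
    simp only [cmap, Equiv.apply_symm_apply]
    linarith [(hy.2 l).1]
  · intro f g hfg
    rw [Set.disjoint_left]
    rintro _ ⟨y, hy, rfl⟩ ⟨y', hy', e⟩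
    apply hfg
    have h1 : ∀ j, ((g (σ g j) : ℕ) : ℝ) * ρ + y' (σ g j) = (f (σ f j) : ℕ) * ρ + y (σ f j) := by
      intro j
      have := congrFun e j
      simp only [cmap] at this
      linarith
    have h2 : ∀ j, (g (σ g j) : ℕ) = f (σ f j) := fun j => grid_eq (hy'.2 _) (hy.2 _) (h1 j)
    have h3 : ∀ j, y' (σ g j) = y (σ f j) := fun j => by
      have := h1 j
      rw [h2 j] at this
      linarith
    have h4 : StrictMono fun a => σ f ((σ g).symm a) := by
      intro a b hab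
      have h5 := hy'.1 hab
      rw [← (σ g).apply_symm_apply a, ← (σ g).apply_symm_apply b, h3, h3] at h5
      exact hy.1.lt_iff_gt.1 h5
    have h5 : (fun a => σ f ((σ g).symm a)) = id :=
      h4.eq_id
    funext a
    have h6 := h2 ((σ g).symm a)
    have h7 : σ f ((σ g).symm a) = a := congrFun h5 a
    rw [Equiv.apply_symm_apply, h7] at h6
    exact Fin.ext h6.symm

end Vale.Agent.P209
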