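import Vale.Agent.P209.Grid

namespace Vale.Agent.P209

open Finset

namespace KraftAux

def ccomp {n : ℕ} (c d : Cell n) : Cell n := (c.1.trans d.1, fun j => c.2 j + d.2 (c.1 j))

theorem cmap_ccomp {n : ℕ} (c d : Cell n) (y : Fin n → ℝ) :
    cmap (ccomp c d) y = cmap c (cmap d y) := by
  funext j
  simp [cmap, ccomp, add_assoc]

theorem img_ccomp {n : ℕ} (c d : Cell n) (s : ℝ) : img (ccomp c d) s = cmap c '' img d s := by
  unfold img
  rw [Set.image_image]
  exact Set.image_congr (fun y _ => cmap_ccomp c d y)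

theorem cmap_inj {n : ℕ} (c : Cell n) : Function.Injective (cmap c) := by
  intro y y' h
  funext k
  have := congrFun h (c.1.symm k)
  simpa [cmap] using this

/-- an injective assignment of the elements of `A` to elements of a subset of `F` -/
theorem assign {ι κ β : Type} (A : Finset ι) (F : Finset κ) (h : A.card ≤ F.card)
    (cl : κ → β) (b : ι → β) :
    ∃ (F0 : Finset κ) (c : ι → β), F0 ⊆ F ∧ F0.card = A.card ∧ (∀ i, i ∉ A → c i = b i) ∧
      (∀ i ∈ A, ∃ q ∈ F0, c i = cl q) ∧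
      ∀ i ∈ A, ∀ j ∈ A, i ≠ j → ∃ q ∈ F0, ∃ q' ∈ F0, q ≠ q' ∧ c i = cl q ∧ c j = cl q' := by
  classical
  obtain ⟨F0, h1, h2⟩ := Finset.exists_subset_card_eq h
  let e : A ≃ F0 := Finset.equivOfCardEq h2.symm
  refine ⟨F0, fun i => if hi : i ∈ A then cl (e ⟨i, hi⟩) else b i, h1, h2, ?_, ?_, ?_⟩
  · intro i hi
    simp only [hi, dif_neg, not_false_eq_true]
  · intro i hi
    exact ⟨e ⟨i, hi⟩, (e ⟨i, hi⟩).2, by simp only [hi, dif_pos]⟩
  · intro i hi j hj hij
    refine ⟨e ⟨i, hi⟩, (e ⟨i, hi⟩).2, e ⟨j, hj⟩, (e ⟨j, hj⟩).2, ?_, by simp only [hi, dif_pos],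
      by simp only [hj, dif_pos]⟩
    intro hq
    have := e.injective (Subtype.ext hq)
    exact hij (congrArg Subtype.val this)

end KraftAux

open KraftAux

/-- Every cell splits into `M^n` cells of size `ρ / M`. -/
theorem split {n : ℕ} (c : Cell n) {ρ : ℝ} (hρ : 0 < ρ) {M : ℕ} (hM : 1 ≤ M) :
    ∃ cl : (Fin n → Fin M) → Cell n, (∀ f, img (cl f) (ρ / M) ⊆ img c ρ) ∧
      ∀ f g, f ≠ g → Disjoint (img (cl f) (ρ / M)) (img (cl g) (ρ / M)) := by
  have hM' : (0 : ℝ) < M := by exact_mod_cast hM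
  obtain ⟨cl, h1, -, h3⟩ := grid n M (ρ := ρ / M) (c := 0) (div_pos hρ hM') le_rfl
  have he : (0 : ℝ) + M * (ρ / M) = ρ := by field_simp; ring
  rw [he] at h1
  refine ⟨fun f => ccomp c (cl f), ?_, ?_⟩
  · intro f
    rw [img_ccomp]
    exact Set.image_mono (h1 f)
  · intro f g hfg
    rw [img_ccomp, img_ccomp]
    exact (Set.disjoint_image_iff (cmap_inj c)).2 (h3 f g hfg)

theorem kraft {n : ℕ} {ι : Type} (L : ℕ) : ∀ (κ : Type) (F : Finset κ) (cl : κ → Cell n) (ρ : ℝ)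
    (A : Finset ι) (lev : ι → ℕ), 0 < ρ → (∀ i ∈ A, lev i ≤ L) →
    (∀ q ∈ F, ∀ q' ∈ F, q ≠ q' → Disjoint (img (cl q) ρ) (img (cl q') ρ)) →
    ∑ i ∈ A, (2 ^ n) ^ (L - lev i) ≤ F.card * (2 ^ n) ^ L →
    ∃ c : ι → Cell n, (∀ i ∈ A, ∃ q ∈ F, img (c i) (ρ / 2 ^ lev i) ⊆ img (cl q) ρ) ∧
      ∀ i ∈ A, ∀ j ∈ A, i ≠ j →
        Disjoint (img (c i) (ρ / 2 ^ lev i)) (img (c j) (ρ / 2 ^ lev j)) := by
  classical
  induction L with
  | zero =>
    intro κ F cl ρ A lev hρ hl hd hs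
    have hc : A.card ≤ F.card := by simpa using hs
    obtain ⟨F0, c, h1, -, -, h4, h5⟩ := assign A F hc cl (fun _ => (1, 0))
    have hl0 : ∀ i ∈ A, ρ / 2 ^ lev i = ρ := by
      intro i hi
      have : lev i = 0 := Nat.le_zero.1 (hl i hi)
      simp [this]
    refine ⟨c, ?_, ?_⟩
    · intro i hi
      obtain ⟨q, hq, hc⟩ := h4 i hi
      exact ⟨q, h1 hq, by rw [hl0 i hi, hc]⟩
    · intro i hi j hj hij
      obtain ⟨q, hq, q', hq', hne, e1, e2⟩ := h5 i hi j hj hij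
      rw [hl0 i hi, hl0 j hj, e1, e2]
      exact hd q (h1 hq) q' (h1 hq') hne
  | succ L ih =>
    intro κ F cl ρ A lev hρ hl hd hs
    set A0 := A.filter (fun i => lev i = 0) with hA0
    set A1 := A.filter (fun i => ¬ lev i = 0) with hA1
    have hsplit : ∑ i ∈ A, (2 ^ n) ^ (L + 1 - lev i) =
        A0.card * (2 ^ n) ^ (L + 1) + ∑ i ∈ A1, (2 ^ n) ^ (L - (lev i - 1)) := by
      rw [← Finset.sum_filter_add_sum_filter_not A (fun i => lev i = 0)]
      congr 1
      · rw [Finset.sum_congr rfl (g := fun _ => (2 ^ n) ^ (L + 1))]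
        · simp [hA0]
        · intro i hi
          rw [(Finset.mem_filter.1 hi).2]; rfl
      · apply Finset.sum_congr rfl
        intro i hi
        have := (Finset.mem_filter.1 hi).2
        congr 1
        omega
    rw [hsplit] at hs
    have hpos : 0 < (2 ^ n) ^ (L + 1) := by positivity
    have hc : A0.card ≤ F.card := by
      apply Nat.le_of_mul_le_mul_right _ hpos
      omega
    obtain ⟨F0, -, h1, h2, -, -, -⟩ := assign A0 F hc cl (fun _ => (1, 0))
    have hsp := fun q : κ => split (cl q) hρ (M := 2) (by norm_num)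
    choose sp hsp1 hsp2 using hsp
    have h22 : ((2 : ℕ) : ℝ) = 2 := by norm_num
    rw [h22] at hsp1 hsp2
    have hcard : ((F \ F0) ×ˢ (univ : Finset (Fin n → Fin 2))).card =
        (F.card - A0.card) * 2 ^ n := by
      rw [Finset.card_product, Finset.card_sdiff_of_subset h1, h2]
      simp
    obtain ⟨c', g1, g2⟩ := ih (κ × (Fin n → Fin 2)) ((F \ F0) ×ˢ univ) (fun p => sp p.1 p.2)
      (ρ / 2) A1 (fun i => lev i - 1) (by positivity)
      (by
        intro i hi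
        have := hl i (Finset.mem_filter.1 hi).1
        show lev i - 1 ≤ L
        omega)
      (by
        rintro ⟨q, f⟩ hq ⟨q', f'⟩ hq' hne
        have a1 : q ∈ F := (Finset.mem_sdiff.1 (Finset.mem_product.1 hq).1).1
        have a2 : q' ∈ F := (Finset.mem_sdiff.1 (Finset.mem_product.1 hq').1).1
        by_cases hqq : q = q'
        · subst hqq
          exact hsp2 q f f' (fun h => hne (by rw [h]))
        · exact (hd q a1 q' a2 hqq).mono (hsp1 q f) (hsp1 q' f'))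
      (by
        rw [hcard, mul_assoc, ← pow_succ', Nat.sub_mul]
        omega)
    obtain ⟨F1, c, k1, -, k3, k4, k5⟩ := assign A0 F0 h2.ge cl c'
    have hl0 : ∀ i ∈ A0, ρ / 2 ^ lev i = ρ := by
      intro i hi
      have : lev i = 0 := (Finset.mem_filter.1 hi).2
      simp [this]
    have hl1 : ∀ i ∈ A1, ρ / 2 ^ lev i = ρ / 2 / 2 ^ (lev i - 1) := by
      intro i hi
      have h0 : ¬ lev i = 0 := (Finset.mem_filter.1 hi).2
      obtain ⟨m, hm⟩ := Nat.exists_eq_succ_of_ne_zero h0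
      rw [hm, Nat.succ_sub_one, pow_succ', div_div]
    have hmem : ∀ i ∈ A, i ∉ A0 → i ∈ A1 := by
      intro i hi h0
      exact Finset.mem_filter.2 ⟨hi, fun h => h0 (Finset.mem_filter.2 ⟨hi, h⟩)⟩
    have in0 : ∀ i ∈ A0, ∃ q ∈ F0, img (c i) (ρ / 2 ^ lev i) ⊆ img (cl q) ρ := by
      intro i hi
      obtain ⟨q, hq, hc⟩ := k4 i hi
      exact ⟨q, k1 hq, by rw [hl0 i hi, hc]⟩
    have in1 : ∀ i ∈ A, i ∉ A0 → ∃ q ∈ F \ F0, img (c i) (ρ / 2 ^ lev i) ⊆ img (cl q) ρ := by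
      intro i hi h0
      obtain ⟨p, hp, hsub⟩ := g1 i (hmem i hi h0)
      refine ⟨p.1, (Finset.mem_product.1 hp).1, ?_⟩
      rw [k3 i h0, hl1 i (hmem i hi h0)]
      exact hsub.trans (hsp1 p.1 p.2)
    have mixed : ∀ i ∈ A0, ∀ j ∈ A, j ∉ A0 →
        Disjoint (img (c i) (ρ / 2 ^ lev i)) (img (c j) (ρ / 2 ^ lev j)) := by
      intro i hi j hj h0
      obtain ⟨q, hq, s1⟩ := in0 i hi
      obtain ⟨q', hq', s2⟩ := in1 j hj h0
      have hq2 := Finset.mem_sdiff.1 hq'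
      exact (hd q (h1 hq) q' hq2.1 (fun h => hq2.2 (h ▸ hq))).mono s1 s2
    refine ⟨c, ?_, ?_⟩
    · intro i hi
      by_cases h0 : i ∈ A0
      · obtain ⟨q, hq, s1⟩ := in0 i h0
        exact ⟨q, h1 hq, s1⟩
      · obtain ⟨q, hq, s1⟩ := in1 i hi h0
        exact ⟨q, (Finset.mem_sdiff.1 hq).1, s1⟩
    · intro i hi j hj hij
      by_cases h0 : i ∈ A0
      · by_cases h0' : j ∈ A0
        · obtain ⟨q, hq, q', hq', hne, e1, e2⟩ := k5 i h0 j h0' hij
          rw [hl0 i h0, hl0 j h0', e1, e2]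
          exact hd q (h1 (k1 hq)) q' (h1 (k1 hq')) hne
        · exact mixed i h0 j hj h0'
      · by_cases h0' : j ∈ A0
        · exact (mixed j h0' i hi h0).symm
        · rw [k3 i h0, k3 j h0', hl1 i (hmem i hi h0), hl1 j (hmem j hj h0')]
          exact g2 i (hmem i hi h0) j (hmem j hj h0') hij

end Vale.Agent.P209
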