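import Vale.Agent.P209.Toric
import Vale.Agent.P209.Comb2

namespace Vale.Agent.P209

open Finset Filter Topology

theorem ev_pow_lt {a b : ℝ} (m : ℕ) (h : a < b) : ∀ᶠ l : ℝ in 𝓝 1, l ^ m * a < b := by
  have hc : ContinuousAt (fun l : ℝ => l ^ m * a) 1 := by fun_prop
  exact hc.eventually_lt continuousAt_const (by simpa using h)

theorem packs_ab {n k : ℕ} (hn : 1 ≤ n) {r : Fin k → ℝ} {R : ℝ} (hR : 0 < R) (hr : ∀ i, 0 < r i)
    (hv : ∑ i, r i ^ n < R ^ n) (h2 : ∀ i j, i ≠ j → r i + r j < R)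
    (h : k ≤ 2 ^ n ∨ ∃ i₀, (∀ i, r i ≤ r i₀) ∧
      r i₀ ^ n + 4 ^ n * ∑ i ∈ univ.erase i₀, r i ^ n < R ^ n) : Packs n r R := by
  rcases Nat.eq_zero_or_pos k with rfl | hk
  · exact ⟨fun i => i.elim0, fun i => i.elim0, fun i => i.elim0, fun i => i.elim0⟩
  have key : ∃ i₀, (∀ i, r i ≤ r i₀) ∧ (k ≤ 2 ^ n ∨
      r i₀ ^ n + 4 ^ n * ∑ i ∈ univ.erase i₀, r i ^ n < R ^ n) := by
    rcases h with h | ⟨i₀, h1, h3⟩
    · haveI : Nonempty (Fin k) := ⟨⟨0, hk⟩⟩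
      obtain ⟨i₀, h0⟩ := Finite.exists_max r
      exact ⟨i₀, h0, Or.inl h⟩
    · exact ⟨i₀, h1, Or.inr h3⟩
  obtain ⟨i₀, hmax, hc⟩ := key
  have h0 : r i₀ < R := by
    have h1 : r i₀ ^ n ≤ ∑ i, r i ^ n :=
      single_le_sum (f := fun i => r i ^ n) (fun i _ => (pow_pos (hr i) n).le) (mem_univ i₀)
    exact lt_of_pow_lt_pow_left₀ n hR.le (h1.trans_lt hv)
  have e1 := ev_pow_lt 1 h0
  have e2 : ∀ᶠ l : ℝ in 𝓝 1, ∀ i, i ≠ i₀ → l ^ 1 * (r i₀ + r i) < R := by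
    refine eventually_all.2 fun i => ?_
    by_cases hi : i = i₀
    · exact Eventually.of_forall fun l h => absurd hi h
    · exact (ev_pow_lt 1 (h2 i₀ i (Ne.symm hi))).mono fun l hl _ => hl
  have e3 : ∀ᶠ l : ℝ in 𝓝 1, k ≤ 2 ^ n ∨
      l ^ n * (r i₀ ^ n + 4 ^ n * ∑ i ∈ univ.erase i₀, r i ^ n) < R ^ n := by
    rcases hc with hc | hc
    · exact Eventually.of_forall fun _ => Or.inl hc
    · exact (ev_pow_lt n hc).mono fun _ hl => Or.inr hl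
  obtain ⟨l, hl1, hl2, hl3, hl4⟩ := (e1.and (e2.and e3)).exists_gt
  have hl0 : 0 < l := by linarith
  refine packs_of_cp hn (s := fun i => l * r i) hr (fun i => by nlinarith [hr i]) ?_
  refine comb hn i₀ (fun i => mul_pos hl0 (hr i))
    (fun i => mul_le_mul_of_nonneg_left (hmax i) hl0.le) (by simpa using hl2)
    (fun i hi => ?_) (hl4.imp id fun h5 => ?_)
  · have := hl3 i hi
    rw [pow_one, mul_add] at this
    exact this.le
  · simp only [mul_pow, ← mul_sum]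
    nlinarith

theorem packs_c {n : ℕ} (hn : 1 ≤ n) {ε : ℝ} (hε : 0 < ε) : ∃ δ : ℝ, 0 < δ ∧
    ∀ (k : ℕ) (r : Fin k → ℝ) (R : ℝ) (i₀ : Fin k), 0 < R → (∀ i, 0 < r i) →
      (∀ i, i ≠ i₀ → r i ≤ δ * R) → ∑ i, r i ^ n ≤ (1 - ε) * R ^ n → Packs n r R := by
  obtain ⟨δ, hδ, h⟩ := comb2 hn (half_pos hε)
  refine ⟨δ / 2, half_pos hδ, fun k r R i₀ hR hr h1 h2 => ?_⟩
  have h3 : ∑ i, r i ^ n < (1 - ε / 2) * R ^ n := by
    have := pow_pos hR n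
    nlinarith
  have e2 : ∀ᶠ l : ℝ in 𝓝 1, l ^ 1 * 1 < 2 := ev_pow_lt 1 (by norm_num)
  obtain ⟨l, hl1, hl2, hl3⟩ := ((ev_pow_lt n h3).and e2).exists_gt
  have hl0 : 0 < l := by linarith
  rw [pow_one, mul_one] at hl3
  refine packs_of_cp hn (s := fun i => l * r i) hr (fun i => by nlinarith [hr i]) ?_
  refine h k _ R i₀ hR (fun i => mul_pos hl0 (hr i)) (fun i hi => ?_) ?_
  · have h4 := h1 i hi
    have h5 := hr i
    nlinarith
  · simp only [mul_pow, ← mul_sum]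
    exact hl2.le

end Vale.Agent.P209
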