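import Vale.Agent.P209.Base

namespace Vale.Agent.P209

open scoped ContDiff

variable {n : ℕ} {A B : Matrix (Fin n) (Fin n) ℤ} {b : Fin n → ℝ}

namespace MonoA

theorem norm_phase {w : Fin n → ℂ} (hw : ∀ k, w k ≠ 0) (m : Fin n → ℤ) :
    ‖∏ k, (w k / (‖w k‖ : ℝ)) ^ (m k)‖ = 1 := by
  rw [norm_prod]
  refine Finset.prod_eq_one fun k _ => ?_
  rw [norm_zpow, norm_div, Complex.norm_real, norm_norm, div_self (norm_ne_zero_iff.2 (hw k)),
    one_zpow]

theorem cd_aff (A : Matrix (Fin n) (Fin n) ℤ) (b : Fin n → ℝ) (j : Fin n) :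
    ContDiff ℝ ∞ fun w : Fin n → ℂ => aff A b (act w) j := by
  unfold aff act
  refine (ContDiff.sum fun k _ => contDiff_const.mul (contDiff_const.mul ?_)).add contDiff_const
  exact (contDiff_apply ℝ ℂ k).norm_sq ℂ

theorem cd_zpow {f : (Fin n → ℂ) → ℂ} {w : Fin n → ℂ} (hf : ContDiffAt ℝ ∞ f w) (h0 : f w ≠ 0)
    (m : ℤ) : ContDiffAt ℝ ∞ (fun z => f z ^ m) w := by
  cases m with
  | ofNat m => simpa using hf.pow m
  | negSucc m =>
    simp only [zpow_negSucc]
    exact (hf.pow (m + 1)).inv (pow_ne_zero _ h0)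

theorem zpow_sum' {u : ℂ} (hu : u ≠ 0) (m : Fin n → ℤ) (s : Finset (Fin n)) :
    ∏ j ∈ s, u ^ m j = u ^ ∑ j ∈ s, m j := by
  induction s using Finset.induction_on with
  | empty => simp
  | insert a s ha ih => rw [Finset.prod_insert ha, Finset.sum_insert ha, zpow_add₀ hu, ih]

theorem phase_inv (h : A.transpose * B = 1) {u : Fin n → ℂ} (hu : ∀ k, u k ≠ 0) (l : Fin n) :
    ∏ j, (∏ k, u k ^ B j k) ^ A j l = u l := by
  have h1 : ∀ k, ∑ j, B j k * A j l = if l = k then 1 else 0 := fun k => by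
    have := congrFun (congrFun h l) k
    rw [Matrix.mul_apply, Matrix.one_apply] at this
    rw [← this]
    exact Finset.sum_congr rfl fun j _ => mul_comm _ _
  simp only [← Finset.prod_zpow, ← zpow_mul]
  rw [Finset.prod_comm, Finset.prod_congr rfl fun k _ => by rw [zpow_sum' (hu k), h1],
    Finset.prod_eq_single l (fun k _ hk => by rw [if_neg hk.symm, zpow_zero])
      (fun h => absurd (Finset.mem_univ _) h), if_pos rfl, zpow_one]

theorem aff_inj (h : A.transpose * B = 1) {x y : Fin n → ℝ} (e : ∀ j, aff A b x j = aff A b y j) :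
    x = y := by
  have h1 : B.transpose * A = 1 := by
    have := congrArg Matrix.transpose h
    rwa [Matrix.transpose_mul, Matrix.transpose_transpose, Matrix.transpose_one] at this
  have h2 : ∀ (x : Fin n → ℝ) l, ∑ j, (B j l : ℝ) * ∑ k, (A j k : ℝ) * x k = x l := fun x l => by
    have h3 : ∀ k, ∑ j, (B j l : ℝ) * A j k = if l = k then 1 else 0 := fun k => by
      have := congrFun (congrFun h1 l) k
      rw [Matrix.mul_apply, Matrix.one_apply] at this
      exact_mod_cast this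
    simp only [Finset.mul_sum, ← mul_assoc]
    rw [Finset.sum_comm]
    simp only [← Finset.sum_mul, h3]
    simp
  funext l
  rw [← h2 x l, ← h2 y l]
  exact Finset.sum_congr rfl fun j _ => by rw [add_right_cancel (e j)]

end MonoA

theorem isOpen_dom (A : Matrix (Fin n) (Fin n) ℤ) (b : Fin n → ℝ) : IsOpen (dom A b) := by
  have e : dom A b = (⋂ k, {w | w k ≠ 0}) ∩ ⋂ j, {w | 0 < aff A b (act w) j} := by
    ext w
    simp [dom]
  rw [e]
  exact (isOpen_iInter_of_finite fun k => isOpen_ne_fun (continuous_apply k) continuous_const).inter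
    (isOpen_iInter_of_finite fun j => isOpen_lt continuous_const (MonoA.cd_aff A b j).continuous)

theorem act_mono {w : Fin n → ℂ} (hw : w ∈ dom A b) (j : Fin n) :
    act (mono A B b w) j = aff A b (act w) j := by
  have h1 := hw.2 j
  have h2 := Real.pi_pos
  show Real.pi * ‖mono A B b w j‖ ^ 2 = _
  unfold mono
  rw [norm_mul, MonoA.norm_phase hw.1, mul_one, Complex.norm_real, Real.norm_eq_abs, sq_abs,
    Real.sq_sqrt (by positivity)]
  field_simp

theorem contDiffOn_mono (A B : Matrix (Fin n) (Fin n) ℤ) (b : Fin n → ℝ) :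
    ContDiffOn ℝ ∞ (mono A B b) (dom A b) := by
  refine contDiffOn_pi.2 fun j w hw => ContDiffAt.contDiffWithinAt ?_
  have h1 := hw.2 j
  have h2 := Real.pi_pos
  unfold mono
  refine ContDiffAt.mul (Complex.ofRealCLM.contDiff.contDiffAt.comp w
    (((MonoA.cd_aff A b j).contDiffAt.div_const _).sqrt (by positivity)))
    (contDiffAt_prod fun k _ => ?_)
  have h3 : ((‖w k‖ : ℝ) : ℂ) ≠ 0 := Complex.ofReal_ne_zero.2 (norm_ne_zero_iff.2 (hw.1 k))
  have h4 : ContDiffAt ℝ ∞ (fun z : Fin n → ℂ => ((‖z k‖ : ℝ) : ℂ)) w :=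
    Complex.ofRealCLM.contDiff.contDiffAt.comp w
      ((contDiff_apply ℝ ℂ k).contDiffAt.norm ℂ (hw.1 k))
  refine MonoA.cd_zpow (f := fun z => z k / (‖z k‖ : ℝ)) ?_ (div_ne_zero (hw.1 k) h3) _
  simp only [div_eq_mul_inv]
  exact (contDiff_apply ℝ ℂ k).contDiffAt.mul (h4.inv h3)

theorem injOn_mono (h : A.transpose * B = 1) : Set.InjOn (mono A B b) (dom A b) := by
  intro w hw w' hw' e
  have h2 := Real.pi_pos
  have e1 : ∀ j, aff A b (act w) j = aff A b (act w') j := fun j => by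
    rw [← act_mono (B := B) hw, ← act_mono (B := B) hw', e]
  have e2 : ∀ k, ‖w k‖ = ‖w' k‖ := fun k =>
    (pow_left_inj₀ (norm_nonneg _) (norm_nonneg _) two_ne_zero).1
      (mul_left_cancel₀ h2.ne' (congrFun (MonoA.aff_inj h e1) k))
  have e3 : ∀ j, ∏ k, (w k / (‖w k‖ : ℝ)) ^ (B j k) = ∏ k, (w' k / (‖w' k‖ : ℝ)) ^ (B j k) :=
    fun j => by
      have h3 := congrFun e j
      have h4 := hw'.2 j
      unfold mono at h3
      rw [e1] at h3
      exact mul_left_cancel₀ (Complex.ofReal_ne_zero.2 (Real.sqrt_pos.2 (by positivity)).ne') h3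
  have h0 : ∀ {w : Fin n → ℂ}, w ∈ dom A b → ∀ k, ((‖w k‖ : ℝ) : ℂ) ≠ 0 := fun hw k =>
    Complex.ofReal_ne_zero.2 (norm_ne_zero_iff.2 (hw.1 k))
  funext l
  have h5 := MonoA.phase_inv h (fun k => div_ne_zero (hw.1 k) (h0 hw k)) l
  rw [Finset.prod_congr rfl fun j _ => by rw [e3 j],
    MonoA.phase_inv h (fun k => div_ne_zero (hw'.1 k) (h0 hw' k)) l, e2 l] at h5
  exact ((div_left_inj' (h0 hw' l)).1 h5).symm

end Vale.Agent.P209
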