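import Vale.Agent.P209.Mono

namespace Vale.Agent.P209

open scoped ContDiff

variable {n : ℕ} {A B : Matrix (Fin n) (Fin n) ℤ} {b : Fin n → ℝ}

/-- radial part of a direction -/
def msXi (w u : ℂ) : ℝ := w.re * u.re + w.im * u.im

/-- angular part of a direction -/
noncomputable def msEta (w u : ℂ) : ℝ := (w.re * u.im - w.im * u.re) / ‖w‖ ^ 2

theorem ms_line (w u : ℂ) : HasDerivAt (fun t : ℝ => w + (t : ℂ) * u) u 0 := by
  have h := ((Complex.ofRealCLM.hasDerivAt (x := (0 : ℝ))).mul_const u).const_add w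
  simpa using h

theorem ms_sq (w u : ℂ) :
    HasDerivAt (fun t : ℝ => ‖w + (t : ℂ) * u‖ ^ 2) (2 * msXi w u) 0 := by
  have h1 : HasDerivAt (fun t : ℝ => w.re + t * u.re) u.re 0 := by
    simpa using ((hasDerivAt_id (0 : ℝ)).mul_const u.re).const_add w.re
  have h2 : HasDerivAt (fun t : ℝ => w.im + t * u.im) u.im 0 := by
    simpa using ((hasDerivAt_id (0 : ℝ)).mul_const u.im).const_add w.im
  have h3 := (h1.mul h1).add (h2.mul h2)
  have e : (fun t : ℝ => ‖w + (t : ℂ) * u‖ ^ 2) = fun t : ℝ =>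
      (w.re + t * u.re) * (w.re + t * u.re) + (w.im + t * u.im) * (w.im + t * u.im) := by
    funext t
    rw [Complex.sq_norm, Complex.normSq_apply]
    simp
  rw [e]
  refine h3.congr_deriv ?_
  simp [msXi]; ring

theorem ms_norm {w : ℂ} (hw : w ≠ 0) (u : ℂ) :
    HasDerivAt (fun t : ℝ => ‖w + (t : ℂ) * u‖) (msXi w u / ‖w‖) 0 := by
  have hn : ‖w‖ ≠ 0 := norm_ne_zero_iff.2 hw
  have h := (ms_sq w u).sqrt (by simpa using hw)
  simp only [Real.sqrt_sq (norm_nonneg _)] at h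
  refine h.congr_deriv ?_
  simp only [Complex.ofReal_zero, zero_mul, add_zero]
  field_simp

theorem ms_phase {w : ℂ} (hw : w ≠ 0) (u : ℂ) :
    HasDerivAt (fun t : ℝ => (w + (t : ℂ) * u) / ((‖w + (t : ℂ) * u‖ : ℝ) : ℂ))
      (Complex.I * (msEta w u : ℝ) * (w / ((‖w‖ : ℝ) : ℂ))) 0 := by
  have hn : ‖w‖ ≠ 0 := norm_ne_zero_iff.2 hw
  have hnc : ((‖w‖ : ℝ) : ℂ) ≠ 0 := by exact_mod_cast hn
  have h1 := (ms_norm hw u).ofReal_comp
  have h := (ms_line w u).div h1 (by simpa using hw)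
  refine h.congr_deriv ?_
  simp only [Complex.ofReal_zero, zero_mul, add_zero]
  have key : u * ((‖w‖ : ℝ) : ℂ) ^ 2 =
      w * (((msXi w u : ℝ) : ℂ) + Complex.I * ((w.re * u.im - w.im * u.re : ℝ) : ℂ)) := by
    rw [← Complex.ofReal_pow, Complex.sq_norm, Complex.normSq_apply]
    apply Complex.ext <;> simp [msXi] <;> ring
  simp only [msEta, Complex.ofReal_div, Complex.ofReal_pow]
  field_simp
  linear_combination key

theorem ms_zpow {P : ℝ → ℂ} {e : ℝ} {p : ℂ} (hp : p ≠ 0) (h0 : P 0 = p)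
    (h : HasDerivAt P (Complex.I * (e : ℝ) * p) 0) (m : ℤ) :
    HasDerivAt (fun t => P t ^ m) (Complex.I * ((m * e : ℝ) : ℂ) * p ^ m) 0 := by
  have h1 : HasDerivAt (fun z : ℂ => z ^ m) (m * (P 0) ^ (m - 1)) (P 0) :=
    hasDerivAt_zpow m (P 0) (Or.inl (h0 ▸ hp))
  have h2 := h1.comp (0 : ℝ) h
  refine h2.congr_deriv ?_
  rw [h0, zpow_sub_one₀ hp]
  push_cast
  field_simp

theorem ms_prod {ι : Type*} (s : Finset ι) (P : ι → ℝ → ℂ) (e : ι → ℝ) (p : ι → ℂ)
    (h0 : ∀ k, P k 0 = p k) (h : ∀ k, HasDerivAt (P k) (Complex.I * (e k : ℝ) * p k) 0) :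
    HasDerivAt (fun t => ∏ k ∈ s, P k t)
      (Complex.I * ((∑ k ∈ s, e k : ℝ) : ℂ) * ∏ k ∈ s, p k) 0 := by
  classical
  induction s using Finset.induction_on with
  | empty => simpa using hasDerivAt_const (0 : ℝ) (1 : ℂ)
  | insert a s ha ih =>
    simp only [Finset.prod_insert ha, Finset.sum_insert ha]
    refine ((h a).mul ih).congr_deriv ?_
    simp only [h0]
    push_cast
    ring

/-- the phase factor -/
noncomputable def msP (B : Matrix (Fin n) (Fin n) ℤ) (w : Fin n → ℂ) (j : Fin n) : ℂ :=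
  ∏ k, (w k / (‖w k‖ : ℝ)) ^ (B j k)

theorem msP_normSq {w : Fin n → ℂ} (hw : ∀ k, w k ≠ 0) (j : Fin n) :
    (msP B w j).re ^ 2 + (msP B w j).im ^ 2 = 1 := by
  have h : ‖msP B w j‖ = 1 := by
    unfold msP
    rw [norm_prod]
    refine Finset.prod_eq_one fun k _ => ?_
    have hn : ‖w k‖ ≠ 0 := norm_ne_zero_iff.2 (hw k)
    rw [norm_zpow, norm_div, Complex.norm_real, norm_norm, div_self hn, one_zpow]
  have h2 := Complex.sq_norm (msP B w j)
  rw [h, Complex.normSq_apply] at h2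
  nlinarith [h2]

theorem ms_comp {w : Fin n → ℂ} (hw : w ∈ dom A b) (u : Fin n → ℂ) (j : Fin n) :
    HasDerivAt (fun t : ℝ => mono A B b (w + t • u) j)
      (((((∑ k, (A j k : ℝ) * msXi (w k) (u k)) / √(aff A b (act w) j / Real.pi) : ℝ) : ℂ) +
        Complex.I * ((√(aff A b (act w) j / Real.pi) *
          ∑ k, (B j k : ℝ) * msEta (w k) (u k) : ℝ) : ℂ)) * msP B w j) 0 := by
  have hpi := Real.pi_pos
  have hpos : 0 < aff A b (act w) j / Real.pi := div_pos (hw.2 j) hpi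
  have hs : √(aff A b (act w) j / Real.pi) ≠ 0 := (Real.sqrt_pos.2 hpos).ne'
  have h1 : HasDerivAt (fun t : ℝ => aff A b (act (w + t • u)) j / Real.pi)
      (2 * ∑ k, (A j k : ℝ) * msXi (w k) (u k)) 0 := by
    have h := ((HasDerivAt.fun_sum (u := Finset.univ) fun k _ =>
      ((ms_sq (w k) (u k)).const_mul Real.pi).const_mul (A j k : ℝ)).add_const (b j)).div_const
      Real.pi
    refine HasDerivAt.congr_deriv (f' := (∑ k, (A j k : ℝ) * (Real.pi * (2 * msXi (w k) (u k))))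
      / Real.pi) ?_ ?_
    · simpa [aff, act] using h
    · rw [Finset.mul_sum, Finset.sum_div]
      refine Finset.sum_congr rfl fun k _ => ?_
      field_simp
  have h2 := (h1.sqrt (by simpa using hpos.ne')).ofReal_comp
  have h3 := ms_prod Finset.univ
    (fun k (t : ℝ) => ((w k + (t : ℂ) * u k) / ((‖w k + (t : ℂ) * u k‖ : ℝ) : ℂ)) ^ (B j k))
    (fun k => (B j k : ℝ) * msEta (w k) (u k)) (fun k => (w k / ((‖w k‖ : ℝ) : ℂ)) ^ (B j k))
    (fun k => by simp) (fun k => ms_zpow (div_ne_zero (hw.1 k)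
      (by exact_mod_cast norm_ne_zero_iff.2 (hw.1 k))) (by simp) (ms_phase (hw.1 k) (u k)) _)
  have h4 := h2.mul h3
  refine HasDerivAt.congr_deriv (by simpa [mono, Pi.mul_def] using h4) ?_
  have hsc : ((√(aff A b (act w) j / Real.pi) : ℝ) : ℂ) ≠ 0 := by exact_mod_cast hs
  simp only [msP]
  push_cast
  field_simp

theorem ms_fderiv {w : Fin n → ℂ} (hw : w ∈ dom A b) (u : Fin n → ℂ) (j : Fin n) :
    fderiv ℝ (mono A B b) w u j =
      ((((∑ k, (A j k : ℝ) * msXi (w k) (u k)) / √(aff A b (act w) j / Real.pi) : ℝ) : ℂ) +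
        Complex.I * ((√(aff A b (act w) j / Real.pi) *
          ∑ k, (B j k : ℝ) * msEta (w k) (u k) : ℝ) : ℂ)) * msP B w j := by
  have hd : DifferentiableAt ℝ (mono A B b) w :=
    ((contDiffOn_mono A B b).contDiffAt ((isOpen_dom A b).mem_nhds hw)).differentiableAt
      (by simp)
  have hl : HasDerivAt (fun t : ℝ => w + t • u) u 0 := by
    simpa using ((hasDerivAt_id (0 : ℝ)).smul_const u).const_add w
  have hd' : HasFDerivAt (mono A B b) (fderiv ℝ (mono A B b) w) (w + (0 : ℝ) • u) := by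
    simpa using hd.hasFDerivAt
  have h := hd'.comp_hasDerivAt (0 : ℝ) hl
  exact (hasDerivAt_pi.1 h j).unique (ms_comp hw u j)

theorem ms_om (x y x' y' : ℝ) (P : ℂ) (hP : P.re ^ 2 + P.im ^ 2 = 1) :
    (((x : ℂ) + Complex.I * (y : ℂ)) * P).re * (((x' : ℂ) + Complex.I * (y' : ℂ)) * P).im -
      (((x : ℂ) + Complex.I * (y : ℂ)) * P).im * (((x' : ℂ) + Complex.I * (y' : ℂ)) * P).re =
      x * y' - y * x' := by
  simp
  linear_combination (x * y' - y * x') * hP

theorem ms_pair (h : A.transpose * B = 1) (x y : Fin n → ℝ) :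
    ∑ j, (∑ k, (A j k : ℝ) * x k) * (∑ l, (B j l : ℝ) * y l) = ∑ k, x k * y k := by
  have hAB : ∀ k l, ∑ j, (A j k : ℝ) * (B j l : ℝ) = if k = l then 1 else 0 := by
    intro k l
    have := congrFun (congrFun h k) l
    rw [Matrix.mul_apply, Matrix.one_apply] at this
    simp only [Matrix.transpose_apply] at this
    have h2 := congrArg (Int.cast : ℤ → ℝ) this
    push_cast at h2
    exact h2
  calc ∑ j, (∑ k, (A j k : ℝ) * x k) * (∑ l, (B j l : ℝ) * y l)
      = ∑ j, ∑ k, ∑ l, (A j k : ℝ) * (B j l : ℝ) * (x k * y l) := by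
        refine Finset.sum_congr rfl fun j _ => ?_
        rw [Finset.sum_mul_sum]
        refine Finset.sum_congr rfl fun k _ => Finset.sum_congr rfl fun l _ => by ring
    _ = ∑ k, ∑ l, (∑ j, (A j k : ℝ) * (B j l : ℝ)) * (x k * y l) := by
        rw [Finset.sum_comm]
        refine Finset.sum_congr rfl fun k _ => ?_
        rw [Finset.sum_comm]
        exact Finset.sum_congr rfl fun l _ => (Finset.sum_mul _ _ _).symm
    _ = ∑ k, x k * y k := by simp [hAB]

theorem symp_mono (h : A.transpose * B = 1) {w : Fin n → ℂ} (hw : w ∈ dom A b)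
    (u v : Fin n → ℂ) :
    omega (fderiv ℝ (mono A B b) w u) (fderiv ℝ (mono A B b) w v) = omega u v := by
  unfold omega
  have e : ∀ j, (fderiv ℝ (mono A B b) w u j).re * (fderiv ℝ (mono A B b) w v j).im -
      (fderiv ℝ (mono A B b) w u j).im * (fderiv ℝ (mono A B b) w v j).re =
      (∑ k, (A j k : ℝ) * msXi (w k) (u k)) * (∑ k, (B j k : ℝ) * msEta (w k) (v k)) -
      (∑ k, (A j k : ℝ) * msXi (w k) (v k)) * (∑ k, (B j k : ℝ) * msEta (w k) (u k)) := by
    intro j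
    have hs : √(aff A b (act w) j / Real.pi) ≠ 0 :=
      (Real.sqrt_pos.2 (div_pos (hw.2 j) Real.pi_pos)).ne'
    rw [ms_fderiv hw u j, ms_fderiv hw v j, ms_om _ _ _ _ _ (msP_normSq hw.1 j)]
    field_simp
  simp only [e]
  rw [Finset.sum_sub_distrib, ms_pair h, ms_pair h, ← Finset.sum_sub_distrib]
  refine Finset.sum_congr rfl fun k _ => ?_
  have hn : ‖w k‖ ^ 2 ≠ 0 := pow_ne_zero _ (norm_ne_zero_iff.2 (hw.1 k))
  have h2 : ‖w k‖ ^ 2 = (w k).re * (w k).re + (w k).im * (w k).im := by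
    rw [Complex.sq_norm, Complex.normSq_apply]
  simp only [msXi, msEta]
  rw [← mul_div_assoc, ← mul_div_assoc, ← sub_div, div_eq_iff hn, h2]
  ring

theorem sympOn_mono (h : A.transpose * B = 1) : SympOn (mono A B b) (dom A b) :=
  ⟨contDiffOn_mono A B b, injOn_mono h, fun _ hw u v => symp_mono h hw u v⟩

end Vale.Agent.P209
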