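import Vale.Agent.P209.Tray
import Vale.Agent.P209.MonoS
import Vale.Agent.P209.Comb

namespace Vale.Agent.P209

open Finset

/-- Tail sums. -/
noncomputable def tl {n : ℕ} (x : Fin n → ℝ) (j : Fin n) : ℝ := ∑ k, if j ≤ k then x k else 0

theorem tl_mem {n : ℕ} {x : Fin n → ℝ} {s : ℝ} (hx : ∀ j, 0 < x j) (hs : ∑ j, x j < s) :
    tl x ∈ T n s := by
  refine ⟨fun i j hij => ?_, fun j => ⟨?_, ?_⟩⟩
  · unfold tl
    refine sum_lt_sum (fun k _ => ?_) ⟨i, mem_univ _, ?_⟩
    · by_cases h : j ≤ k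
      · rw [if_pos h, if_pos (hij.le.trans h)]
      · rw [if_neg h]
        split_ifs
        · exact (hx k).le
        · exact le_rfl
    · rw [if_neg (not_le.2 hij), if_pos le_rfl]
      exact hx i
  · unfold tl
    refine sum_pos' (fun k _ => ?_) ⟨j, mem_univ _, ?_⟩
    · split_ifs
      · exact (hx k).le
      · exact le_rfl
    · rw [if_pos le_rfl]
      exact hx j
  · refine lt_of_le_of_lt ?_ hs
    unfold tl
    refine sum_le_sum fun k _ => ?_
    split_ifs
    · exact le_rfl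
    · exact (hx k).le

theorem tl_split {n : ℕ} (x : Fin n → ℝ) (j : Fin n) :
    tl x j = x j + ∑ k, if j < k then x k else 0 := by
  unfold tl
  have h : x j = ∑ k, if k = j then x k else 0 := by simp
  rw [h, ← sum_add_distrib]
  refine sum_congr rfl fun k _ => ?_
  rcases lt_trichotomy j k with h1 | h1 | h1
  · simp [h1, h1.le, h1.ne']
  · simp [h1]
  · simp [not_le.2 h1, h1.ne, not_lt.2 h1.le]

theorem pos_of_tl {n : ℕ} {x : Fin n → ℝ} {R : ℝ} (h : tl x ∈ T n R) (j : Fin n) : 0 < x j := by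
  have h1 := tl_split x j
  by_cases hj : j.val + 1 < n
  · have h2 : (∑ k, if j < k then x k else 0) = tl x ⟨j.val + 1, hj⟩ := by
      unfold tl
      refine sum_congr rfl fun k _ => ?_
      have : j < k ↔ (⟨j.val + 1, hj⟩ : Fin n) ≤ k := by
        rw [Fin.lt_def, Fin.le_def]
        simp only
        omega
      simp only [this]
    have h3 := h.1 (show j < ⟨j.val + 1, hj⟩ by rw [Fin.lt_def]; simp)
    linarith
  · have h2 : (∑ k, if j < k then x k else 0) = 0 := by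
      refine sum_eq_zero fun k _ => if_neg ?_
      rw [Fin.lt_def]
      have := k.isLt
      omega
    have h3 := (h.2 j).1
    linarith

theorem sum_lt_of_tl {n : ℕ} (hn : 1 ≤ n) {x : Fin n → ℝ} {R : ℝ} (h : tl x ∈ T n R) :
    ∑ j, x j < R := by
  have h1 := (h.2 ⟨0, hn⟩).2
  have h2 : tl x ⟨0, hn⟩ = ∑ j, x j := by
    unfold tl
    refine sum_congr rfl fun k _ => if_pos ?_
    rw [Fin.le_def]
    exact Nat.zero_le _
  rwa [h2] at h1

/-- The unimodular affine map of a cell in action coordinates. -/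
theorem cell_matrix {n : ℕ} (c : Cell n) :
    ∃ (A B : Matrix (Fin n) (Fin n) ℤ) (b : Fin n → ℝ), A.transpose * B = 1 ∧
      ∀ x, tl (aff A b x) = cmap c (tl x) := by
  let U : Matrix (Fin n) (Fin n) ℤ := Matrix.of fun i j => if i ≤ j then 1 else 0
  have hdet : U.det = 1 := by
    rw [Matrix.det_of_upperTriangular]
    · simp [U]
    · intro i j hij
      exact if_neg (not_le.2 hij)
  have hu : IsUnit U.det := by rw [hdet]; exact isUnit_one
  have h1 : U * U⁻¹ = 1 := Matrix.mul_nonsing_inv U hu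
  have h2 : U⁻¹ * U = 1 := Matrix.nonsing_inv_mul U hu
  let P : Matrix (Fin n) (Fin n) ℤ := Matrix.of fun j k => if k = c.1 j then 1 else 0
  have hP : P.transpose * P = 1 := by
    ext k l
    rw [Matrix.mul_apply, sum_eq_single (c.1.symm k)]
    · simp [P, Matrix.one_apply, eq_comm]
    · intro j _ hj
      have : k ≠ c.1 j := fun h => hj (by rw [h]; simp)
      simp [P, this]
    · simp
  let f : ℤ →+* ℝ := Int.castRingHom ℝ
  refine ⟨U⁻¹ * P * U, (U⁻¹ * P.transpose * U).transpose, ((U⁻¹).map f).mulVec c.2, ?_,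
    fun x => ?_⟩
  · rw [← Matrix.transpose_mul, ← Matrix.transpose_one]
    congr 1
    calc U⁻¹ * P.transpose * U * (U⁻¹ * P * U)
        = U⁻¹ * (P.transpose * ((U * U⁻¹) * P)) * U := by simp only [Matrix.mul_assoc]
      _ = 1 := by rw [h1, Matrix.one_mul, hP, Matrix.mul_one, h2]
  · have e1 : ∀ y : Fin n → ℝ, tl y = (U.map f).mulVec y := by
      intro y
      funext j
      simp [tl, Matrix.mulVec, dotProduct, U, f, apply_ite]
    have e2 : aff (U⁻¹ * P * U) (((U⁻¹).map f).mulVec c.2) x =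
        ((U⁻¹ * P * U).map f).mulVec x + ((U⁻¹).map f).mulVec c.2 := by
      funext j
      simp [aff, Matrix.mulVec, dotProduct, f]
    have e3 : ∀ y : Fin n → ℝ, (P.map f).mulVec y = fun j => y (c.1 j) := by
      intro y
      funext j
      simp [Matrix.mulVec, dotProduct, P, f, apply_ite]
    have e4 : U * (U⁻¹ * P * U) = P * U := by
      rw [← Matrix.mul_assoc, ← Matrix.mul_assoc, h1, Matrix.one_mul]
    rw [e2, e1, Matrix.mulVec_add, Matrix.mulVec_mulVec, Matrix.mulVec_mulVec,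
      ← Matrix.map_mul, ← Matrix.map_mul, h1, e4, Matrix.map_mul, ← Matrix.mulVec_mulVec, e3,
      ← e1, Matrix.map_one _ (map_zero f) (map_one f), Matrix.one_mulVec]
    funext j
    simp [cmap, add_comm]

theorem emb_of_cell {n : ℕ} (c : Cell n) {r s R : ℝ} (hr : 0 < r) (hs : r < s)
    (h : img c s ⊆ T n R) :
    ∃ φ, SympEmb n r φ ∧ ∀ z ∈ cball n r, tl (act (φ z)) ∈ img c s := by
  obtain ⟨A, B, b, hAB, hc⟩ := cell_matrix c
  obtain ⟨Ψ, U, hU, hsub, hΨ, hz⟩ := traynor n hr hs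
  have hy : ∀ z ∈ U, tl (act (Ψ z)) ∈ T n s := fun z hzU =>
    tl_mem (fun j => mul_pos Real.pi_pos (pow_pos (norm_pos_iff.2 ((hz z hzU).1 j)) 2))
      (hz z hzU).2
  have hm : Set.MapsTo Ψ U (dom A b) := fun z hzU =>
    ⟨(hz z hzU).1, pos_of_tl (R := R) (by
      rw [hc]
      exact h ⟨_, hy z hzU, rfl⟩)⟩
  refine ⟨mono A B b ∘ Ψ, ⟨U, hU, hsub, (sympOn_mono hAB).comp hΨ (isOpen_dom A b) hU hm⟩,
    fun z hzr => ?_⟩
  have h1 : act ((mono A B b ∘ Ψ) z) = aff A b (act (Ψ z)) :=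
    funext fun j => act_mono (hm (hsub hzr)) j
  rw [h1, hc]
  exact ⟨_, hy z (hsub hzr), rfl⟩

theorem packs_of_cp {n k : ℕ} (hn : 1 ≤ n) {r s : Fin k → ℝ} {R : ℝ} (hr : ∀ i, 0 < r i)
    (hs : ∀ i, r i < s i) (h : CP n s R) : Packs n r R := by
  obtain ⟨c, h1, h2⟩ := h
  choose φ hφ hφ' using fun i => emb_of_cell (c i) (hr i) (hs i) (h1 i)
  refine ⟨φ, hφ, ?_, fun i j hij => ?_⟩
  · rintro i _ ⟨z, hz, rfl⟩
    have h3 := sum_lt_of_tl hn (h1 i (hφ' i z hz))
    show Real.pi * _ < R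
    rw [mul_sum]
    exact h3
  · rw [Set.disjoint_left]
    rintro _ ⟨z, hz, rfl⟩ ⟨z', hz', he⟩
    have h3 := hφ' j z' hz'
    rw [he] at h3
    exact Set.disjoint_left.1 (h2 i j hij) (hφ' i z hz) h3

end Vale.Agent.P209
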