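import Vale.Agent.P209.Drag

namespace Vale.Agent.P209

open scoped ContDiff

theorem SympOn.comp {n : ℕ} {φ φ' : (Fin n → ℂ) → (Fin n → ℂ)} {U U' : Set (Fin n → ℂ)}
    (h : SympOn φ U) (h' : SympOn φ' U') (hU : IsOpen U) (hU' : IsOpen U')
    (hm : Set.MapsTo φ' U' U) : SympOn (φ ∘ φ') U' := by
  refine ⟨h.smooth.comp h'.smooth hm, h.inj.comp h'.inj hm, fun z hz v w => ?_⟩
  have d1 := (h.smooth.contDiffAt (hU.mem_nhds (hm hz))).differentiableAt (by simp)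
  have d2 := (h'.smooth.contDiffAt (hU'.mem_nhds hz)).differentiableAt (by simp)
  rw [fderiv_comp z d1 d2, ContinuousLinearMap.comp_apply, ContinuousLinearMap.comp_apply,
    h.symp _ (hm hz), h'.symp z hz]

theorem AreaP.pi {n : ℕ} {ψ : ℂ → ℂ} (h : AreaP ψ) (U : Set (Fin n → ℂ)) :
    SympOn (fun (z : Fin n → ℂ) (j : Fin n) => ψ (z j)) U := by
  have hd : Differentiable ℝ ψ := h.smooth.differentiable (by simp)
  refine ⟨(contDiff_pi.2 fun j => h.smooth.comp (contDiff_apply ℝ ℂ j)).contDiffOn,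
    fun z _ z' _ hz => funext fun j => h.inj (congrFun hz j), fun z _ v w => ?_⟩
  have h1 : HasFDerivAt (fun (z : Fin n → ℂ) (j : Fin n) => ψ (z j))
      (ContinuousLinearMap.pi fun j => (fderiv ℝ ψ (z j)).comp
        (ContinuousLinearMap.proj (R := ℝ) (φ := fun _ : Fin n => ℂ) j)) z :=
    hasFDerivAt_pi.2 fun j => (hd (z j)).hasFDerivAt.comp z (hasFDerivAt_apply j z)
  rw [h1.fderiv]
  exact Finset.sum_congr rfl fun j _ => h.area (z j) (v j) (w j)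

/-- Traynor trick: a ball embeds into a slightly larger ball minus the coordinate hyperplanes. -/
theorem traynor (n : ℕ) {r s : ℝ} (hr : 0 < r) (hs : r < s) :
    ∃ (Ψ : (Fin n → ℂ) → (Fin n → ℂ)) (U : Set (Fin n → ℂ)), IsOpen U ∧ cball n r ⊆ U ∧
      SympOn Ψ U ∧ ∀ z ∈ U, (∀ j, Ψ z j ≠ 0) ∧ ∑ j, act (Ψ z) j < s := by
  have hp := Real.pi_gt_three
  obtain ⟨K, hK⟩ : ∃ K : ℝ, K = n * (Real.pi * (2 * (s + 1) + 1)) := ⟨_, rfl⟩
  have hs0 : 0 < s := hr.trans hs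
  have hK0 : 0 ≤ K := by rw [hK]; positivity
  obtain ⟨e, he0, he1, he2⟩ : ∃ e : ℝ, 0 < e ∧ e ≤ 1 ∧ K * e ≤ (s - r) / 2 := by
    have h1 : 0 < (s - r) / 2 / (K + 1) := div_pos (by linarith) (by linarith)
    refine ⟨min 1 ((s - r) / 2 / (K + 1)), lt_min one_pos h1, min_le_left _ _, ?_⟩
    refine (mul_le_mul_of_nonneg_left (min_le_right _ _) hK0).trans ?_
    rw [← mul_div_assoc, div_le_iff₀ (by linarith)]
    nlinarith
  obtain ⟨ψ, h1, h2, h3⟩ := drag (s + 1) he0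
  refine ⟨fun z j => ψ (z j), oball n ((r + s) / 2), isOpen_lt (by fun_prop) continuous_const,
    fun z hz => lt_of_le_of_lt (b := r) hz (by linarith), h1.pi _, fun z hz => ?_⟩
  have hz' : Real.pi * ∑ j, ‖z j‖ ^ 2 < (r + s) / 2 := hz
  have hb : ∀ j, ‖z j‖ ≤ s + 1 := by
    intro j
    have h4 : ‖z j‖ ^ 2 ≤ ∑ j, ‖z j‖ ^ 2 :=
      Finset.single_le_sum (f := fun j => ‖z j‖ ^ 2) (fun _ _ => sq_nonneg _) (Finset.mem_univ j)
    have h5 := sq_nonneg ‖z j‖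
    have h6 : ‖z j‖ ^ 2 ≤ s := by nlinarith
    nlinarith
  refine ⟨fun j => h3 _ (hb j), ?_⟩
  have h4 : ∑ j, act (fun j => ψ (z j)) j ≤
      ∑ j, (Real.pi * ‖z j‖ ^ 2 + Real.pi * (2 * (s + 1) + 1) * e) := by
    refine Finset.sum_le_sum fun j _ => ?_
    have h5 := pow_le_pow_left₀ (norm_nonneg _) (h2 (z j)) 2
    have h6 := mul_le_mul_of_nonneg_right (hb j) he0.le
    have h7 : ‖ψ (z j)‖ ^ 2 ≤ ‖z j‖ ^ 2 + (2 * (s + 1) + 1) * e := by nlinarith
    have h8 := mul_le_mul_of_nonneg_left h7 Real.pi_pos.le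
    unfold act
    linarith
  rw [Finset.sum_add_distrib, ← Finset.mul_sum, Finset.sum_const, Finset.card_univ,
    Fintype.card_fin, nsmul_eq_mul, ← mul_assoc, ← hK] at h4
  linarith

end Vale.Agent.P209
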