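import Vale.Agent.P209.Base

namespace Vale.Agent.P209

open scoped ContDiff
open Complex

lemma twist_norm (c : ℂ) (A : ℂ → ℝ) (z : ℂ) :
    ‖c + (z - c) * exp ((A z : ℝ) * I) - c‖ = ‖z - c‖ := by
  rw [add_sub_cancel_left, norm_mul, norm_exp_ofReal_mul_I, mul_one]

lemma twist_area (c : ℂ) {a : ℝ → ℝ} (ha : ContDiff ℝ ∞ a) :
    AreaP fun z => c + (z - c) * exp ((a ((z - c).re ^ 2 + (z - c).im ^ 2) : ℝ) * I) := by
  have hq : ContDiff ℝ ∞ fun z : ℂ => (z - c).re ^ 2 + (z - c).im ^ 2 :=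
    ((reCLM.contDiff.comp (contDiff_id.sub contDiff_const)).pow 2).add
      ((imCLM.contDiff.comp (contDiff_id.sub contDiff_const)).pow 2)
  refine ⟨contDiff_const.add ((contDiff_id.sub contDiff_const).mul
    ((ofRealCLM.contDiff.comp (ha.comp hq)).mul contDiff_const).cexp), fun z w h => ?_,
    fun z v w => ?_⟩
  · have h1 := twist_norm c (fun z => a ((z - c).re ^ 2 + (z - c).im ^ 2)) z
    have h2 := twist_norm c (fun z => a ((z - c).re ^ 2 + (z - c).im ^ 2)) w
    rw [h, h2] at h1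
    have h3 : (z - c).re ^ 2 + (z - c).im ^ 2 = (w - c).re ^ 2 + (w - c).im ^ 2 := by
      have := congrArg (· ^ 2) h1
      simp only [Complex.sq_norm, normSq_apply] at this
      linarith
    rw [h3, add_right_inj] at h
    exact sub_left_injective (mul_right_cancel₀ (exp_ne_zero _) h)
  · have h1 : HasFDerivAt (fun z : ℂ => z - c) (ContinuousLinearMap.id ℝ ℂ) z :=
      (hasFDerivAt_id z).sub_const c
    have h2 := ((reCLM.hasFDerivAt.comp z h1).pow 2).add ((imCLM.hasFDerivAt.comp z h1).pow 2)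
    have h3 := ((ha.differentiable (by simp)) ((z - c).re ^ 2 + (z - c).im ^ 2)).hasDerivAt
    have h4 := ofRealCLM.hasFDerivAt.comp z (h3.comp_hasFDerivAt z h2)
    have h5 := (h1.mul (h4.mul_const I).cexp).const_add c
    have h6 : ∀ v, fderiv ℝ (fun z => c + (z - c) *
        exp ((a ((z - c).re ^ 2 + (z - c).im ^ 2) : ℝ) * I)) z v =
        (v + I * (z - c) * (deriv a ((z - c).re ^ 2 + (z - c).im ^ 2) *
          (2 * ((z - c).re * v.re + (z - c).im * v.im)) : ℝ)) *
          exp ((a ((z - c).re ^ 2 + (z - c).im ^ 2) : ℝ) * I) := fun v => by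
      refine (congrArg (· v) h5.fderiv).trans ?_
      simp
      ring
    rw [h6, h6]
    generalize a ((z - c).re ^ 2 + (z - c).im ^ 2) = t
    generalize deriv a ((z - c).re ^ 2 + (z - c).im ^ 2) = k
    generalize z - c = u
    simp only [om, mul_re, mul_im, add_re, add_im, I_re, I_im, ofReal_re, ofReal_im,
      exp_ofReal_mul_I_re, exp_ofReal_mul_I_im]
    linear_combination (v.re * w.im - v.im * w.re) * Real.sin_sq_add_cos_sq t

/-- A twist map: half turn near `c`, identity far from `c`. -/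
theorem twist (c : ℂ) {ε : ℝ} (hε : 0 < ε) :
    ∃ S : ℂ → ℂ, AreaP S ∧ (∀ z, ‖S z - c‖ = ‖z - c‖) ∧ (∀ z, 2 * ε ≤ ‖z - c‖ → S z = z) ∧
      S (c + ε) = c - ε := by
  have ha : ContDiff ℝ ∞ fun t : ℝ =>
      Real.pi * Real.smoothTransition ((4 * ε ^ 2 - t) / (3 * ε ^ 2)) :=
    contDiff_const.mul (Real.smoothTransition.contDiff.comp
      ((contDiff_const.sub contDiff_id).div_const _))
  refine ⟨_, twist_area c ha, fun z => twist_norm c (fun z => Real.pi * Real.smoothTransition
    ((4 * ε ^ 2 - ((z - c).re ^ 2 + (z - c).im ^ 2)) / (3 * ε ^ 2))) z, fun z hz => ?_, ?_⟩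
  · have h := pow_le_pow_left₀ (by positivity) hz 2
    rw [Complex.sq_norm, normSq_apply] at h
    rw [Real.smoothTransition.zero_of_nonpos
      (div_nonpos_of_nonpos_of_nonneg (by nlinarith) (by positivity))]
    simp
  · simp only [add_sub_cancel_left, ofReal_re, ofReal_im]
    rw [Real.smoothTransition.one_of_one_le (by rw [le_div_iff₀ (by positivity)]; nlinarith),
      mul_one, exp_pi_mul_I]
    ring

end Vale.Agent.P209
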